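import Mathlib

/-!
ROW TB-AVG (CRITICAL ROW; replace the `sorry`, keep the statement exactly; helper lemmas: fresh
names with stem `tba_` in this file).  The mean of a `ℤ³`-periodic continuous function over the
unit cube is invariant under composition with a matrix `A ∈ SL(3, ℤ)`.

Suggested proof (fundamental domains).  Let `Λ = ℤ³ ⊆ ℝ³` be the subgroup
`(Submodule.span ℤ (Set.range (Pi.basisFun ℝ (Fin 3)))).toAddSubgroup`, acting by translations,
`μ = volume`.
1. `ZSpan.isAddFundamentalDomain (Pi.basisFun ℝ (Fin 3)) volume` with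
   `ZSpan.fundamentalDomain_pi_basisFun`: `D₀ = Set.pi univ (fun _ => Set.Ico 0 1)` is a
   fundamental domain; `D₀` and `Set.Icc 0 1` (`= Set.pi univ (fun _ => Set.Icc 0 1)`,
   `Set.pi_univ_Icc`) differ by a null set (`MeasureTheory.Measure.univ_pi_Ico_ae_eq_Icc`), so
   integrals over them agree (`MeasureTheory.setIntegral_congr_set`).
2. `L y = AR *ᵥ y` with `AR = A.map Int.cast` is a linear equivalence of `ℝ³` with
   `LinearMap.det = 1` (`Matrix.det` of `AR` is the cast of `A.det`: `Int.cast_det` /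
   `RingHom.map_det`), so it preserves Lebesgue measure
   (`MeasureTheory.Measure.addHaar_preimage_linearMap`, or `LinearMap.det` versions of
   `MeasureTheory.Measure.map_linearMap_addHaar_eq_smul_addHaar`), and it maps `Λ` onto `Λ`
   (`AR` and its inverse, the cast of the adjugate of `A`, have integer entries).
   Hence `L ⁻¹' D₀` is again a fundamental domain for `Λ`
   (`MeasureTheory.IsAddFundamentalDomain.preimage_of_equiv` / `image_of_equiv`).
3. `F ∘ L` is `Λ`-invariant (`F` is, and `L` maps `Λ` into `Λ`), so by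
   `MeasureTheory.IsAddFundamentalDomain.setIntegral_eq`
   `∫ y in D₀, F (L y) = ∫ y in L ⁻¹' D₀, F (L y)`, and the change of variables `z = L y`
   (measure preserving: `MeasureTheory.MeasurePreserving.setIntegral_preimage_emb` or
   `MeasureTheory.setIntegral_map_equiv`) gives `= ∫ z in D₀, F z`.
Alternative: both `D₀` and `ZSpan.fundamentalDomain b` for the basis `b` formed by the columns of
`AR` are fundamental domains of the same `Λ`; or pass to the torus `UnitAddTorus (Fin 3)` and use
that a continuous surjective endomorphism of a compact group preserves Haar measure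
(`AddMonoidHom.measurePreserving`).  Any correct route is welcome.
`Λ`-invariance of `F` from `hper`: induction on the integer coefficients
(`F (y + n • Pi.single j 1) = F y` for `n : ℤ`).
-/

namespace Vale.Agent.H55.TB

open Matrix MeasureTheory

/-- The periods of a function form a subgroup. -/
def tba_periods (F : (Fin 3 → ℝ) → ℝ) : AddSubgroup (Fin 3 → ℝ) where
  carrier := {v | ∀ x, F (x + v) = F x}
  zero_mem' := by
    intro x
    simp
  add_mem' := by
    intro a b ha hb x
    rw [← add_assoc, hb, ha]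
  neg_mem' := by
    intro a ha x
    have h := ha (x + -a)
    rw [add_assoc, neg_add_cancel, add_zero] at h
    exact h.symm

theorem tba_lattice_le (F : (Fin 3 → ℝ) → ℝ)
    (hper : ∀ (y : Fin 3 → ℝ) (j : Fin 3), F (y + Pi.single j 1) = F y) :
    (Submodule.span ℤ (Set.range (Pi.basisFun ℝ (Fin 3)))).toAddSubgroup ≤ tba_periods F := by
  rw [Submodule.span_int_eq_addSubgroupClosure, AddSubgroup.closure_le]
  rintro _ ⟨j, rfl⟩
  intro x
  rw [Pi.basisFun_apply]
  exact hper x j

theorem tb_avg_comp (F : (Fin 3 → ℝ) → ℝ) (hF : Continuous F)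
    (hper : ∀ (y : Fin 3 → ℝ) (j : Fin 3), F (y + Pi.single j 1) = F y)
    (A : Matrix (Fin 3) (Fin 3) ℤ) (hA : A.det = 1) :
    ∫ y in Set.Icc (0 : Fin 3 → ℝ) 1, F ((A.map (Int.cast : ℤ → ℝ)) *ᵥ y)
      = ∫ y in Set.Icc (0 : Fin 3 → ℝ) 1, F y := by
  classical
  set AR : Matrix (Fin 3) (Fin 3) ℝ := A.map (Int.cast : ℤ → ℝ) with hAR
  set BR : Matrix (Fin 3) (Fin 3) ℝ := A.adjugate.map (Int.cast : ℤ → ℝ) with hBR
  have hmap1 : (1 : Matrix (Fin 3) (Fin 3) ℤ).map (Int.cast : ℤ → ℝ) = 1 := by
    exact Matrix.map_one _ Int.cast_zero Int.cast_one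
  have hmapmul : ∀ M N : Matrix (Fin 3) (Fin 3) ℤ, (M * N).map (Int.cast : ℤ → ℝ) =
      M.map (Int.cast : ℤ → ℝ) * N.map (Int.cast : ℤ → ℝ) := by
    intro M N
    have := (Int.castRingHom ℝ).mapMatrix.map_mul M N
    simpa using this
  have hAB : AR * BR = 1 := by
    rw [hAR, hBR, ← hmapmul, Matrix.mul_adjugate, hA, one_smul, hmap1]
  have hBA : BR * AR = 1 := by
    rw [hAR, hBR, ← hmapmul, Matrix.adjugate_mul, hA, one_smul, hmap1]
  have hdet : AR.det = 1 := by
    have h2 := (Int.castRingHom ℝ).map_det A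
    rw [hA] at h2
    have h3 : (Int.castRingHom ℝ).mapMatrix A = AR := rfl
    rw [h3] at h2
    simpa using h2.symm
  let L : (Fin 3 → ℝ) ≃ₗ[ℝ] (Fin 3 → ℝ) :=
    LinearEquiv.ofLinearMap (Matrix.toLin' AR) (Matrix.toLin' BR)
      (by rw [← Matrix.toLin'_mul, hAB, Matrix.toLin'_one])
      (by rw [← Matrix.toLin'_mul, hBA, Matrix.toLin'_one])
  have hL : ∀ y, L y = AR *ᵥ y := fun y => rfl
  have hLs : ∀ y, L.symm y = BR *ᵥ y := fun y => rfl
  set b := Pi.basisFun ℝ (Fin 3) with hb
  -- measure preserving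
  have hmp : MeasurePreserving (fun y => L y) volume volume := by
    refine ⟨L.toContinuousLinearEquiv.continuous.measurable, ?_⟩
    have h := Real.map_matrix_volume_pi_eq_smul_volume_pi (M := AR) (by rw [hdet]; exact one_ne_zero)
    rw [hdet] at h
    have e : (fun y => L y) = (Matrix.toLin' AR : (Fin 3 → ℝ) → (Fin 3 → ℝ)) := rfl
    rw [e, h]
    simp
  have hemb : MeasurableEmbedding (fun y => L y) :=
    L.toContinuousLinearEquiv.toHomeomorph.measurableEmbedding
  -- fundamental domains
  have hfd1 := ZSpan.isAddFundamentalDomain' b (volume : Measure (Fin 3 → ℝ))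
  have hfd2 := ZSpan.isAddFundamentalDomain' (b.map L) (volume : Measure (Fin 3 → ℝ))
  have hspan : Submodule.span ℤ (Set.range (b.map L)) = Submodule.span ℤ (Set.range b) := by
    apply le_antisymm
    · rw [Submodule.span_le]
      rintro _ ⟨j, rfl⟩
      rw [SetLike.mem_coe, Module.Basis.mem_span_iff_repr_mem]
      intro i
      refine ⟨A i j, ?_⟩
      simp [b, hL, AR]
    · rw [Submodule.span_le]
      rintro _ ⟨j, rfl⟩
      rw [SetLike.mem_coe, Module.Basis.mem_span_iff_repr_mem]
      intro i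
      refine ⟨A.adjugate i j, ?_⟩
      simp [b, hLs, BR]
  rw [hspan] at hfd2
  have hinv : ∀ (g : (Submodule.span ℤ (Set.range b)).toAddSubgroup) (x : Fin 3 → ℝ),
      F (g +ᵥ x) = F x := by
    intro g x
    have h := tba_lattice_le F hper g.2 x
    rw [add_comm] at h
    exact h
  have : Countable (Submodule.span ℤ (Set.range b)).toAddSubgroup :=
    inferInstanceAs (Countable (Submodule.span ℤ (Set.range b)))
  have key := hfd1.setIntegral_eq hfd2 hinv
  have hD : ZSpan.fundamentalDomain b =ᵐ[volume] Set.Icc (0 : Fin 3 → ℝ) 1 := by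
    rw [hb, ZSpan.fundamentalDomain_pi_basisFun]
    exact Measure.univ_pi_Ico_ae_eq_Icc
  have himg : ZSpan.fundamentalDomain (b.map L) = (fun y => L y) '' ZSpan.fundamentalDomain b :=
    (ZSpan.map_fundamentalDomain b L).symm
  calc ∫ y in Set.Icc (0 : Fin 3 → ℝ) 1, F (AR *ᵥ y)
      = ∫ y in ZSpan.fundamentalDomain b, F (L y) := (setIntegral_congr_set hD).symm
    _ = ∫ z in (fun y => L y) '' ZSpan.fundamentalDomain b, F z :=
        (hmp.setIntegral_image_emb hemb F _).symm
    _ = ∫ z in ZSpan.fundamentalDomain (b.map L), F z := by rw [himg]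
    _ = ∫ z in ZSpan.fundamentalDomain b, F z := key.symm
    _ = ∫ y in Set.Icc (0 : Fin 3 → ℝ) 1, F y := setIntegral_congr_set hD

end Vale.Agent.H55.TB
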