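import Vale.Agent.H55.TB.Defs
import Vale.Agent.H55.TamedGeneral

/-!
Torus bundles over the circle: entries of `hat A`, the Pfaffian of a `4 × 4` skew matrix and the
slope `P1` of the Pfaffian along the line `c ↦ corrected c J β`.
-/

namespace Vale.Agent.H55.TB

open Matrix Vale.Agent.H55.Tamed

@[simp] theorem hat_zero_zero (A : Matrix (Fin 3) (Fin 3) ℤ) : hat A 0 0 = 1 := rfl

@[simp] theorem hat_zero_succ (A : Matrix (Fin 3) (Fin 3) ℤ) (b : Fin 3) :
    hat A 0 b.succ = 0 := rfl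

@[simp] theorem hat_succ_zero (A : Matrix (Fin 3) (Fin 3) ℤ) (a : Fin 3) :
    hat A a.succ 0 = 0 := rfl

@[simp] theorem hat_succ_succ (A : Matrix (Fin 3) (Fin 3) ℤ) (a b : Fin 3) :
    hat A a.succ b.succ = (A a b : ℝ) := rfl

/-- The Pfaffian of a `4 × 4` skew matrix (in terms of its upper triangle). -/
def pf4 (M : Matrix (Fin 4) (Fin 4) ℝ) : ℝ := M 0 1 * M 2 3 - M 0 2 * M 1 3 + M 0 3 * M 1 2

/-- The derivative of `c ↦ pf4 (corrected c J β)`. -/
def P1 (J β : Matrix (Fin 4) (Fin 4) ℝ) : ℝ :=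
  fvec J 1 * β 2 3 - fvec J 2 * β 1 3 + fvec J 3 * β 1 2

end Vale.Agent.H55.TB
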