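import Vale.Agent.H55.TB.Basic

/-!
ROW TB-P1 (proved; the statement is that of the stub; helper lemmas: fresh names with stem
`tbq_` in this file).  The slope `P1 J β = f 1 * β 2 3 - f 2 * β 1 3 + f 3 * β 1 2`
(`f = fvec J = fun j => -J 0 j`) does not vanish when `β` is positive on the `J`-invariant plane
inside the hyperplane `v 0 = 0`.

Proof.  Skewness entrywise: `β j i = -β i j`, `β i i = 0`.  Facts from
`Vale/Agent/H55/TamedLinAlg.lean`: `fvec_dot J v : fvec J ⬝ᵥ v = -(J *ᵥ v) 0`.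
Suppose `P1 J β = 0`.  Let `b : Fin 4 → ℝ = ![0, β 2 3, -β 1 3, β 1 2]`.
Then `b 0 = 0`, `fvec J ⬝ᵥ b = P1 J β = 0` (`Fin.sum_univ_four`), and for every `w` with
`w 0 = 0`: `b ⬝ᵥ (β *ᵥ w) = 0` (expand with `Fin.sum_univ_four`; the coefficient of `w 1` is
`b 2 * β 2 1 + b 3 * β 3 1 = β 1 3 * β 1 2 - β 1 2 * β 1 3 = 0`, similarly for `w 2`, `w 3`).
Take `w = J *ᵥ b`: `w 0 = -(fvec J ⬝ᵥ b) = 0`.
* If `b ≠ 0`, `hpos b` gives `0 < b ⬝ᵥ (β *ᵥ (J *ᵥ b)) = 0`, absurd.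
* If `b = 0`, then `β 2 3 = β 1 3 = β 1 2 = 0`, so `β i j = 0` for all `i, j ≠ 0`, and
  `v ⬝ᵥ (β *ᵥ w) = 0` whenever `v 0 = 0` and `w 0 = 0`.  Choose `v ≠ 0` with `v 0 = 0` and
  `fvec J ⬝ᵥ v = 0`: `v = ![0, f 2, -f 1, 0]` if `f 1 ≠ 0` or `f 2 ≠ 0`, else `v = ![0, 1, 0, 0]`
  (then `f 1 = 0`).  With `w = J *ᵥ v` (`w 0 = 0`), `hpos v` is absurd.
-/

namespace Vale.Agent.H55.TB

open Matrix Vale.Agent.H55.Tamed

theorem tbq_expand (β : Matrix (Fin 4) (Fin 4) ℝ) (v w : Fin 4 → ℝ) (hv : v 0 = 0)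
    (hw : w 0 = 0) :
    v ⬝ᵥ (β *ᵥ w) = v 1 * (β 1 1 * w 1 + β 1 2 * w 2 + β 1 3 * w 3)
      + v 2 * (β 2 1 * w 1 + β 2 2 * w 2 + β 2 3 * w 3)
      + v 3 * (β 3 1 * w 1 + β 3 2 * w 2 + β 3 3 * w 3) := by
  simp only [dotProduct, Matrix.mulVec, Fin.sum_univ_four, hv, hw]
  ring

theorem tbq_kernel (β : Matrix (Fin 4) (Fin 4) ℝ) (hs : ∀ i j, β j i = -β i j)
    (hd : ∀ i, β i i = 0) (w : Fin 4 → ℝ) (hw : w 0 = 0) :
    (![0, β 2 3, -β 1 3, β 1 2] : Fin 4 → ℝ) ⬝ᵥ (β *ᵥ w) = 0 := by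
  have e0 : (![0, β 2 3, -β 1 3, β 1 2] : Fin 4 → ℝ) 0 = 0 := rfl
  have e1 : (![0, β 2 3, -β 1 3, β 1 2] : Fin 4 → ℝ) 1 = β 2 3 := rfl
  have e2 : (![0, β 2 3, -β 1 3, β 1 2] : Fin 4 → ℝ) 2 = -β 1 3 := rfl
  have e3 : (![0, β 2 3, -β 1 3, β 1 2] : Fin 4 → ℝ) 3 = β 1 2 := rfl
  rw [tbq_expand β _ w e0 hw, e1, e2, e3, hd 1, hd 2, hd 3, hs 1 2, hs 1 3, hs 2 3]
  ring

theorem P1_ne_zero (J β : Matrix (Fin 4) (Fin 4) ℝ) (hJ : J * J = -1) (hβ : βᵀ = -β)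
    (hpos : ∀ v : Fin 4 → ℝ, v ≠ 0 → v 0 = 0 → fvec J ⬝ᵥ v = 0 →
      0 < v ⬝ᵥ (β *ᵥ (J *ᵥ v))) :
    P1 J β ≠ 0 := by
  have _hJ := hJ
  have hs : ∀ i j, β j i = -β i j := by
    intro i j
    have h := congrFun (congrFun hβ i) j
    simpa [Matrix.transpose_apply] using h
  have hd : ∀ i, β i i = 0 := by
    intro i
    have h := hs i i
    linarith
  have hJ0 : ∀ v : Fin 4 → ℝ, fvec J ⬝ᵥ v = 0 → (J *ᵥ v) 0 = 0 := by
    intro v hv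
    have h := fvec_dot J v
    rw [hv] at h
    linarith
  intro hP
  unfold P1 at hP
  by_cases hb : (![0, β 2 3, -β 1 3, β 1 2] : Fin 4 → ℝ) = 0
  · have h23 : β 2 3 = 0 := by
      have h := congrFun hb 1
      simpa using h
    have h13 : β 1 3 = 0 := by
      have h := congrFun hb 2
      simpa using h
    have h12 : β 1 2 = 0 := by
      have h := congrFun hb 3
      simpa using h
    have key : ∀ v w : Fin 4 → ℝ, v 0 = 0 → w 0 = 0 → v ⬝ᵥ (β *ᵥ w) = 0 := by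
      intro v w hv hw
      rw [tbq_expand β v w hv hw, hd 1, hd 2, hd 3, hs 1 2, hs 1 3, hs 2 3, h12, h13, h23]
      ring
    by_cases hf : fvec J 1 = 0 ∧ fvec J 2 = 0
    · have hv : (![0, 1, 0, 0] : Fin 4 → ℝ) ≠ 0 := by
        intro h
        have h1 := congrFun h 1
        simp at h1
      have hv0 : (![0, 1, 0, 0] : Fin 4 → ℝ) 0 = 0 := rfl
      have hfv : fvec J ⬝ᵥ (![0, 1, 0, 0] : Fin 4 → ℝ) = 0 := by
        simp [dotProduct, Fin.sum_univ_four, hf.1]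
      have h1 := hpos _ hv hv0 hfv
      rw [key _ _ hv0 (hJ0 _ hfv)] at h1
      exact lt_irrefl _ h1
    · have hv : (![0, fvec J 2, -fvec J 1, 0] : Fin 4 → ℝ) ≠ 0 := by
        intro h
        apply hf
        constructor
        · have h2 := congrFun h 2
          simpa using h2
        · have h1 := congrFun h 1
          simpa using h1
      have hv0 : (![0, fvec J 2, -fvec J 1, 0] : Fin 4 → ℝ) 0 = 0 := rfl
      have hfv : fvec J ⬝ᵥ (![0, fvec J 2, -fvec J 1, 0] : Fin 4 → ℝ) = 0 := by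
        simp [dotProduct, Fin.sum_univ_four]
        ring
      have h1 := hpos _ hv hv0 hfv
      rw [key _ _ hv0 (hJ0 _ hfv)] at h1
      exact lt_irrefl _ h1
  · have hb0 : (![0, β 2 3, -β 1 3, β 1 2] : Fin 4 → ℝ) 0 = 0 := rfl
    have hfb : fvec J ⬝ᵥ (![0, β 2 3, -β 1 3, β 1 2] : Fin 4 → ℝ) = 0 := by
      simp [dotProduct, Fin.sum_univ_four]
      linarith
    have h1 := hpos _ hb hb0 hfb
    rw [tbq_kernel β hs hd _ (hJ0 _ hfb)] at h1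
    exact lt_irrefl _ h1

end Vale.Agent.H55.TB
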