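import Vale.Agent.H55.TB.Basic

/-!
ROW TB-UNIF (replace the `sorry`, keep the statement exactly; helper lemmas: fresh names with
stem `tbu_` in this file).  A uniform constant for `t ∈ [0, 1]`, without periodicity, and
monotone in `c`.  COPY-ADAPT of `Vale.Agent.H55.Tamed.exists_uniform_c'`
(`Vale/Agent/H55/TamedGeneral.lean`) with `Ot = fun _ => β`:
* keep the compactness part (`exists_c_of_compact` on `Icc 0 1 ×ˢ unit sphere`) verbatim; it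
  gives `c₀` with `0 < Gf p + c₀ * qf p` on `K`; take `c₁ = c₀`;
* delete the reduction of `t` to one period (now `t ∈ Icc 0 1` is given), keep the
  normalisation of `v`; this proves the claim for `c = c₁`;
* monotonicity: by `corrected_tame`,
  `v ⬝ᵥ (corrected c J β *ᵥ (J *ᵥ v)) = (value at c₁) + (c - c₁) * (v 0 ^ 2 + (fvec J ⬝ᵥ v) ^ 2)`,
  and the last term is `≥ 0` for `c₁ ≤ c`.
-/

namespace Vale.Agent.H55.TB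

open Matrix Vale.Agent.H55.Tamed

/-- The uniform constant on `[0, 1]` for a continuous family of forms (no periodicity). -/
theorem tbu_uniform_Icc (Jt Ot : ℝ → Matrix (Fin 4) (Fin 4) ℝ)
    (hJt : Continuous Jt) (hOt : Continuous Ot)
    (hJ : ∀ t, Jt t * Jt t = -1)
    (hpos : ∀ t, ∀ v : Fin 4 → ℝ, v ≠ 0 → v 0 = 0 → fvec (Jt t) ⬝ᵥ v = 0 →
      0 < v ⬝ᵥ (Ot t *ᵥ (Jt t *ᵥ v))) :
    ∃ c : ℝ, ∀ t ∈ Set.Icc (0 : ℝ) 1, ∀ v : Fin 4 → ℝ, v ≠ 0 →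
      0 < v ⬝ᵥ (corrected c (Jt t) (Ot t) *ᵥ (Jt t *ᵥ v)) := by
  set K : Set (ℝ × (Fin 4 → ℝ)) := Set.Icc (0 : ℝ) 1 ×ˢ {v : Fin 4 → ℝ | v ⬝ᵥ v = 1} with hKdef
  have hK : IsCompact K := isCompact_Icc.prod isCompact_unitSphere
  have hJc : Continuous (fun p : ℝ × (Fin 4 → ℝ) => Jt p.1) := hJt.comp continuous_fst
  have hOc : Continuous (fun p : ℝ × (Fin 4 → ℝ) => Ot p.1) := hOt.comp continuous_fst
  have hac : Continuous (fun p : ℝ × (Fin 4 → ℝ) => avec (Jt p.1) (Ot p.1)) :=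
    (continuous_avec Jt Ot hJt hOt hJ).comp continuous_fst
  have hfc : Continuous (fun p : ℝ × (Fin 4 → ℝ) => fvec (Jt p.1)) :=
    (continuous_fvec Jt hJt).comp continuous_fst
  have hv0 : Continuous (fun p : ℝ × (Fin 4 → ℝ) => p.2 0) :=
    (continuous_apply 0).comp continuous_snd
  set Gf : ℝ × (Fin 4 → ℝ) → ℝ := fun p => p.2 ⬝ᵥ (Ot p.1 *ᵥ (Jt p.1 *ᵥ p.2))
    - 2 * (p.2 0 * (avec (Jt p.1) (Ot p.1) ⬝ᵥ (Jt p.1 *ᵥ p.2)))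
    - 2 * ((avec (Jt p.1) (Ot p.1) ⬝ᵥ p.2) * (fvec (Jt p.1) ⬝ᵥ p.2)) with hGf
  set qf : ℝ × (Fin 4 → ℝ) → ℝ := fun p => p.2 0 ^ 2 + (fvec (Jt p.1) ⬝ᵥ p.2) ^ 2 with hqf
  have hGc : Continuous Gf :=
    ((continuous_snd.dotProduct (hOc.matrix_mulVec (hJc.matrix_mulVec continuous_snd))).sub
      (continuous_const.mul (hv0.mul (hac.dotProduct (hJc.matrix_mulVec continuous_snd))))).sub
      (continuous_const.mul ((hac.dotProduct continuous_snd).mul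
        (hfc.dotProduct continuous_snd)))
  have hqc : Continuous qf := (hv0.pow 2).add ((hfc.dotProduct continuous_snd).pow 2)
  obtain ⟨c, hc⟩ := exists_c_of_compact K hK Gf qf hGc hqc (fun p _ => by positivity)
    (fun p hp hq => by
      have hpne : p.2 ≠ 0 := by
        intro h
        have h1 : p.2 ⬝ᵥ p.2 = 1 := hp.2
        rw [h] at h1
        simp at h1
      have h1 : p.2 0 = 0 := by
        have : p.2 0 ^ 2 = 0 := by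
          have h2 : p.2 0 ^ 2 + (fvec (Jt p.1) ⬝ᵥ p.2) ^ 2 = 0 := hq
          nlinarith [sq_nonneg (p.2 0), sq_nonneg (fvec (Jt p.1) ⬝ᵥ p.2)]
        exact pow_eq_zero_iff (two_ne_zero) |>.mp this
      have h2 : fvec (Jt p.1) ⬝ᵥ p.2 = 0 := by
        have : (fvec (Jt p.1) ⬝ᵥ p.2) ^ 2 = 0 := by
          have h2 : p.2 0 ^ 2 + (fvec (Jt p.1) ⬝ᵥ p.2) ^ 2 = 0 := hq
          nlinarith [sq_nonneg (p.2 0), sq_nonneg (fvec (Jt p.1) ⬝ᵥ p.2)]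
        exact pow_eq_zero_iff (two_ne_zero) |>.mp this
      have h3 := hpos p.1 p.2 hpne h1 h2
      simp only [hGf, h1, h2]
      linarith)
  refine ⟨c, ?_⟩
  intro t' ht' v hv
  -- normalise `v`
  have hn : 0 < v ⬝ᵥ v := dot_self_pos v hv
  set s := Real.sqrt (v ⬝ᵥ v) with hs
  have hs0 : 0 < s := Real.sqrt_pos.mpr hn
  have hss : s * s = v ⬝ᵥ v := Real.mul_self_sqrt hn.le
  have hwK : (t', s⁻¹ • v) ∈ K := by
    refine ⟨⟨ht'.1, ht'.2⟩, ?_⟩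
    change (s⁻¹ • v) ⬝ᵥ (s⁻¹ • v) = 1
    rw [smul_dotProduct, dotProduct_smul, smul_eq_mul, smul_eq_mul, ← hss]
    field_simp
  have h1 := hc (t', s⁻¹ • v) hwK
  have h2 := corrected_tame c (Jt t') (Ot t') (hJ t') (s⁻¹ • v)
  have h3 : (s⁻¹ • v) ⬝ᵥ (corrected c (Jt t') (Ot t') *ᵥ (Jt t' *ᵥ (s⁻¹ • v)))
      = s⁻¹ * s⁻¹ * (v ⬝ᵥ (corrected c (Jt t') (Ot t') *ᵥ (Jt t' *ᵥ v))) := by
    simp only [Matrix.mulVec_smul, smul_dotProduct, dotProduct_smul, smul_eq_mul]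
    ring
  have h4 : 0 < (s⁻¹ • v) ⬝ᵥ (corrected c (Jt t') (Ot t') *ᵥ (Jt t' *ᵥ (s⁻¹ • v))) := by
    rw [h2]
    have h5 : Gf (t', s⁻¹ • v) + c * qf (t', s⁻¹ • v)
        = (s⁻¹ • v) ⬝ᵥ (Ot t' *ᵥ (Jt t' *ᵥ (s⁻¹ • v)))
          - 2 * ((s⁻¹ • v) 0 * (avec (Jt t') (Ot t') ⬝ᵥ (Jt t' *ᵥ (s⁻¹ • v))))
          - 2 * ((avec (Jt t') (Ot t') ⬝ᵥ (s⁻¹ • v)) * (fvec (Jt t') ⬝ᵥ (s⁻¹ • v)))
          + c * ((s⁻¹ • v) 0 ^ 2 + (fvec (Jt t') ⬝ᵥ (s⁻¹ • v)) ^ 2) := rfl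
    rw [← h5]
    exact h1
  rw [h3] at h4
  have h6 : 0 < s⁻¹ * s⁻¹ := by positivity
  exact (mul_pos_iff_of_pos_left h6).mp h4

theorem tb_uniform_c (Jt : ℝ → Matrix (Fin 4) (Fin 4) ℝ) (β : Matrix (Fin 4) (Fin 4) ℝ)
    (hJt : Continuous Jt) (hJ : ∀ t, Jt t * Jt t = -1)
    (hpos : ∀ t, ∀ v : Fin 4 → ℝ, v ≠ 0 → v 0 = 0 → fvec (Jt t) ⬝ᵥ v = 0 →
      0 < v ⬝ᵥ (β *ᵥ (Jt t *ᵥ v))) :
    ∃ c₁ : ℝ, ∀ t ∈ Set.Icc (0 : ℝ) 1, ∀ c : ℝ, c₁ ≤ c → ∀ v : Fin 4 → ℝ, v ≠ 0 →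
      0 < v ⬝ᵥ (corrected c (Jt t) β *ᵥ (Jt t *ᵥ v)) := by
  obtain ⟨c₁, h⟩ := tbu_uniform_Icc Jt (fun _ => β) hJt continuous_const hJ hpos
  refine ⟨c₁, fun t ht c hc v hv => ?_⟩
  have h1 : 0 < v ⬝ᵥ (corrected c₁ (Jt t) β *ᵥ (Jt t *ᵥ v)) := h t ht v hv
  rw [corrected_tame c₁ (Jt t) β (hJ t) v] at h1
  rw [corrected_tame c (Jt t) β (hJ t) v]
  have hq : 0 ≤ v 0 ^ 2 + (fvec (Jt t) ⬝ᵥ v) ^ 2 := by positivity
  nlinarith [mul_nonneg (sub_nonneg.mpr hc) hq]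

end Vale.Agent.H55.TB
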