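import Vale.Agent.H55.TB.Pf
import Vale.Agent.H55.TB.P1
import Vale.Agent.H55.TB.Unif

/-!
ROW TB-CHOOSE (statement kept exactly; helper lemmas: fresh names with
stem `tbk_` in this file; `pf4_corrected` (`Pf.lean`), `P1_ne_zero` (`P1.lean`), `tb_uniform_c`
(`Unif.lean`) are to be used AS STATED, whether or not their proofs have landed).  A smooth
choice `c t` with constant Pfaffian that is taming on `[0, 1]`.

1. `p t = P1 (Jt t) β` is smooth (a polynomial in entries of `Jt t`: `fvec J j = -J 0 j`) and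
   `p t ≠ 0` for all `t` (`P1_ne_zero`).  By the intermediate value theorem it has a constant
   sign: there is `s ∈ {1, -1}` with `0 < s * p t` for all `t` (if `0 < p 0` take `s = 1`: a `t`
   with `p t ≤ 0` would give a zero between; `intermediate_value_uIcc` or
   `IsPreconnected`-type lemmas; otherwise `s = -1`).
2. `c₁` from `tb_uniform_c Jt β` (`Jt` is continuous: `continuous_matrix`, entries smooth).
3. `q t = pf4 (corrected c₁ (Jt t) β)` is smooth: the entries of `corrected c₁ (Jt t) β` are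
   smooth by `Vale.Agent.H55.Tamed.contDiff_corrected c₁ Jt (fun _ => β) hJs (fun _ _ =>
   contDiff_const) hJ` (`Vale/Agent/H55/TamedAnalysis.lean`).  `|q|` is bounded on `Icc 0 1` by
   some `K` (`IsCompact.exists_bound_of_continuousOn`).
4. `c t = c₁ + (s * K - q t) / p t`: smooth (`ContDiff.div`, `p t ≠ 0`).  By `pf4_corrected`
   (applied at `c t` and at `c₁`): `pf4 (corrected (c t) (Jt t) β) = q t + (c t - c₁) * p t
   = s * K` for every `t`, so `κ = s * K`.
5. For `t ∈ Icc 0 1`: the quotient `[s * K - q t] / p t = [K - s * q t] / [s * p t]` is `≥ 0` (`s * s = 1`,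
   `|q t| ≤ K`), so `c₁ ≤ c t` and `tb_uniform_c` gives the taming inequality.
-/

namespace Vale.Agent.H55.TB

open Matrix Vale.Agent.H55.Tamed
open scoped ContDiff

theorem tb_choose (Jt : ℝ → Matrix (Fin 4) (Fin 4) ℝ) (β : Matrix (Fin 4) (Fin 4) ℝ)
    (hJs : ∀ i j, ContDiff ℝ ∞ (fun t => Jt t i j)) (hJ : ∀ t, Jt t * Jt t = -1)
    (hβ : βᵀ = -β)
    (hpos : ∀ t, ∀ v : Fin 4 → ℝ, v ≠ 0 → v 0 = 0 → fvec (Jt t) ⬝ᵥ v = 0 →
      0 < v ⬝ᵥ (β *ᵥ (Jt t *ᵥ v))) :
    ∃ (c : ℝ → ℝ) (κ : ℝ), ContDiff ℝ ∞ c ∧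
      (∀ t, pf4 (corrected (c t) (Jt t) β) = κ) ∧
      ∀ t ∈ Set.Icc (0 : ℝ) 1, ∀ v : Fin 4 → ℝ, v ≠ 0 →
        0 < v ⬝ᵥ (corrected (c t) (Jt t) β *ᵥ (Jt t *ᵥ v)) := by
  have hp_smooth : ContDiff ℝ ∞ (fun t => P1 (Jt t) β) := by
    unfold P1 fvec
    exact ((((hJs 0 1).neg).mul contDiff_const).sub (((hJs 0 2).neg).mul contDiff_const)).add
      (((hJs 0 3).neg).mul contDiff_const)
  have hp_ne : ∀ t, P1 (Jt t) β ≠ 0 := fun t => P1_ne_zero (Jt t) β (hJ t) hβ (hpos t)
  have hp_cont : Continuous (fun t => P1 (Jt t) β) := hp_smooth.continuous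
  obtain ⟨s, hs1, hs⟩ : ∃ s : ℝ, s * s = 1 ∧ ∀ t, 0 < s * P1 (Jt t) β := by
    rcases lt_or_gt_of_ne (hp_ne 0) with h0 | h0
    · refine ⟨-1, by norm_num, fun t => ?_⟩
      by_contra hneg
      rw [not_lt] at hneg
      have ht : 0 ≤ P1 (Jt t) β := by linarith
      have hiv := intermediate_value_uIcc (f := fun t => P1 (Jt t) β) (a := 0) (b := t)
        hp_cont.continuousOn
      have hmem : (0 : ℝ) ∈ Set.uIcc (P1 (Jt 0) β) (P1 (Jt t) β) := by
        rw [Set.mem_uIcc]
        left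
        exact ⟨h0.le, ht⟩
      obtain ⟨t', _, ht'⟩ := hiv hmem
      exact hp_ne t' ht'
    · refine ⟨1, by norm_num, fun t => ?_⟩
      by_contra hneg
      rw [not_lt] at hneg
      have ht : P1 (Jt t) β ≤ 0 := by linarith
      have hiv := intermediate_value_uIcc (f := fun t => P1 (Jt t) β) (a := 0) (b := t)
        hp_cont.continuousOn
      have hmem : (0 : ℝ) ∈ Set.uIcc (P1 (Jt 0) β) (P1 (Jt t) β) := by
        rw [Set.mem_uIcc]
        right
        exact ⟨ht, h0.le⟩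
      obtain ⟨t', _, ht'⟩ := hiv hmem
      exact hp_ne t' ht'
  have hJt : Continuous Jt := continuous_matrix (fun i j => (hJs i j).continuous)
  obtain ⟨c₁, hc₁⟩ := tb_uniform_c Jt β hJt hJ hpos
  have hq_smooth : ContDiff ℝ ∞ (fun t => pf4 (corrected c₁ (Jt t) β)) := by
    have hc := contDiff_corrected c₁ Jt (fun _ => β) hJs (fun _ _ => contDiff_const) hJ
    unfold pf4
    exact (((hc 0 1).mul (hc 2 3)).sub ((hc 0 2).mul (hc 1 3))).add ((hc 0 3).mul (hc 1 2))
  obtain ⟨K, hK⟩ : ∃ K, ∀ t ∈ Set.Icc (0 : ℝ) 1, |pf4 (corrected c₁ (Jt t) β)| ≤ K := by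
    obtain ⟨K, hK⟩ := isCompact_Icc.exists_bound_of_continuousOn
      (f := fun t => pf4 (corrected c₁ (Jt t) β)) (hq_smooth.continuous.continuousOn)
    exact ⟨K, fun t ht => by simpa [Real.norm_eq_abs] using hK t ht⟩
  refine ⟨fun t => c₁ + (s * K - pf4 (corrected c₁ (Jt t) β)) / P1 (Jt t) β, s * K, ?_, ?_, ?_⟩
  · exact contDiff_const.add ((contDiff_const.sub hq_smooth).div hp_smooth hp_ne)
  · intro t
    have e1 := pf4_corrected (c₁ + (s * K - pf4 (corrected c₁ (Jt t) β)) / P1 (Jt t) β) (Jt t) β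
    have e2 := pf4_corrected c₁ (Jt t) β
    have hp := hp_ne t
    simp only []
    rw [e1]
    field_simp
    linarith
  · intro t ht v hv
    have hp := hp_ne t
    have hsabs : |s| = 1 := by
      have h1 : |s| * |s| = 1 := by rw [← abs_mul, hs1, abs_one]
      nlinarith [abs_nonneg s]
    have hsq : s * pf4 (corrected c₁ (Jt t) β) ≤ K := by
      calc s * pf4 (corrected c₁ (Jt t) β) ≤ |s * pf4 (corrected c₁ (Jt t) β)| := le_abs_self _
        _ = |s| * |pf4 (corrected c₁ (Jt t) β)| := abs_mul _ _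
        _ = |pf4 (corrected c₁ (Jt t) β)| := by rw [hsabs, one_mul]
        _ ≤ K := hK t ht
    have hnum : 0 ≤ (s * K - pf4 (corrected c₁ (Jt t) β)) * P1 (Jt t) β := by
      have e : (s * K - pf4 (corrected c₁ (Jt t) β)) * P1 (Jt t) β
          = (K - s * pf4 (corrected c₁ (Jt t) β)) * (s * P1 (Jt t) β) := by
        linear_combination (pf4 (corrected c₁ (Jt t) β) * P1 (Jt t) β) * hs1
      rw [e]
      exact mul_nonneg (by linarith) (hs t).le
    have hdiv : 0 ≤ (s * K - pf4 (corrected c₁ (Jt t) β)) / P1 (Jt t) β := by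
      have e : (s * K - pf4 (corrected c₁ (Jt t) β)) / P1 (Jt t) β
          = ((s * K - pf4 (corrected c₁ (Jt t) β)) * P1 (Jt t) β) / (P1 (Jt t) β) ^ 2 := by
        field_simp
      rw [e]
      exact div_nonneg hnum (sq_nonneg _)
    exact hc₁ t ht _ (by linarith) v hv

end Vale.Agent.H55.TB
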