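import Vale.Agent.H55.TB.Basic
import Vale.Agent.H55.TamedMain

/-!
ROW TB-CLOSED: a fibre-invariant skew form on the mapping torus is closed as soon as its spatial
coefficients have vanishing `x 0`-derivative.  Copy-adapt of `coordDeriv_inv` and
`closed_of_spatial` in `Vale/Agent/H55/TamedMain.lean` with `FiberInvariant` in place of
`TorusInvariant` (`FiberInvariant B : ∀ x y, y 0 = x 0 → B y = B x`; the point
`x + t • Pi.single i 1` with `i ≠ 0` has the same `0`-coordinate as `x`).
-/

namespace Vale.Agent.H55.TB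

open Matrix Vale.Agent.H55.Tamed

theorem tbc_coordDeriv_inv (B : (Fin 4 → ℝ) → Matrix (Fin 4) (Fin 4) ℝ) (hB : FiberInvariant B)
    (a b i : Fin 4) (hi : i ≠ 0) (x : Fin 4 → ℝ) :
    coordDeriv i (fun y => B y a b) x = 0 := by
  apply coordDeriv_eq_zero_of_const
  intro t
  have : B (x + t • Pi.single i 1) = B x := by
    apply hB
    simp [hi.symm]
  rw [this]

theorem tb_closed_of_spatial (B : (Fin 4 → ℝ) → Matrix (Fin 4) (Fin 4) ℝ)
    (hB : FiberInvariant B) (hskew : ∀ x, (B x)ᵀ = -B x)
    (h0 : ∀ x a b, a ≠ 0 → b ≠ 0 → coordDeriv 0 (fun y => B y a b) x = 0) :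
    IsClosedForm B := by
  intro x i j k
  by_cases hi : i = 0 <;> by_cases hj : j = 0 <;> by_cases hk : k = 0
  · subst hi hj hk
    have := coordDeriv_skew B hskew 0 0 0 x
    linarith
  · subst hi hj
    have h1 := coordDeriv_skew B hskew 0 k 0 x
    have h2 := tbc_coordDeriv_inv B hB 0 0 k hk x
    linarith
  · subst hi hk
    have h1 := coordDeriv_skew B hskew j 0 0 x
    have h2 := tbc_coordDeriv_inv B hB 0 0 j hj x
    linarith
  · subst hi
    have h1 := h0 x j k hj hk
    have h2 := tbc_coordDeriv_inv B hB k 0 j hj x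
    have h3 := tbc_coordDeriv_inv B hB 0 j k hk x
    linarith
  · subst hj hk
    have h1 := tbc_coordDeriv_inv B hB 0 0 i hi x
    have h2 := coordDeriv_skew B hskew 0 i 0 x
    linarith
  · subst hj
    have h1 := tbc_coordDeriv_inv B hB 0 k i hi x
    have h2 := h0 x k i hk hi
    have h3 := tbc_coordDeriv_inv B hB i 0 k hk x
    linarith
  · subst hk
    have h1 := tbc_coordDeriv_inv B hB j 0 i hi x
    have h2 := tbc_coordDeriv_inv B hB 0 i j hj x
    have h3 := h0 x i j hi hj
    linarith
  · have h1 := tbc_coordDeriv_inv B hB j k i hi x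
    have h2 := tbc_coordDeriv_inv B hB k i j hj x
    have h3 := tbc_coordDeriv_inv B hB i j k hk x
    linarith

end Vale.Agent.H55.TB
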