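import Vale.Agent.H55.TamedDefs

/-!
Torus bundles over the circle: the mapping torus of `A ∈ SL(3, ℤ)` is the quotient of
`ℝ⁴ = ℝ × ℝ³` by the lattice translations in the last three coordinates and by the deck
transformation `(t, y) ↦ (t + 1, A y)`.  Tensor fields on the mapping torus are tensor fields on
`ℝ⁴` invariant under these maps.
-/

namespace Vale.Agent.H55.TB

open Matrix

/-- The `4 × 4` block matrix `1 ⊕ A` of the linear map `(t, y) ↦ (t, A y)` of `ℝ⁴ = ℝ × ℝ³`. -/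
def hat (A : Matrix (Fin 3) (Fin 3) ℤ) : Matrix (Fin 4) (Fin 4) ℝ :=
  Matrix.of (fun i j : Fin 4 =>
    Fin.cases (Fin.cases (1 : ℝ) (fun _ => 0) j)
      (fun a => Fin.cases (0 : ℝ) (fun b => (A a b : ℝ)) j) i)

/-- The deck transformation `(t, y) ↦ (t + 1, A y)` of `ℝ⁴ = ℝ × ℝ³`. -/
def deck (A : Matrix (Fin 3) (Fin 3) ℤ) (x : Fin 4 → ℝ) : Fin 4 → ℝ :=
  hat A *ᵥ x + Pi.single 0 1

/-- The field depends only on the coordinate `x 0`: it is invariant under all translations in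
the coordinates `x 1, x 2, x 3` (the fibre directions). -/
def FiberInvariant (B : (Fin 4 → ℝ) → Matrix (Fin 4) (Fin 4) ℝ) : Prop :=
  ∀ x y : Fin 4 → ℝ, y 0 = x 0 → B y = B x

end Vale.Agent.H55.TB
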