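import Vale.Agent.H55.TB.Basic

/-!
ROW TB-HAT (done; helper lemmas carry the stem `tbh_`).  Elementary facts about
`hat A = 1 ⊕ A` and the deck transformation `deck A x = hat A *ᵥ x + Pi.single 0 1`.

Entries: `hat_zero_zero`, `hat_zero_succ`, `hat_succ_zero`, `hat_succ_succ` (`Basic.lean`, all
`rfl`).  Sums over `Fin 4`: `Fin.sum_univ_succ` (splits off the index `0`), vectors: `funext` +
`Fin.cases`.  `cons4 t y = Fin.cons t y` (`Vale.Agent.H55.Tamed.cons4`, simp lemmas `cons4_zero`,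
`cons4_succ`).
* `hat_det`: `Matrix.det_succ_row_zero` (Laplace expansion along row `0`): only the term `j = 0`
  survives (`hat A 0 j.succ = 0`), and the minor `(hat A).submatrix Fin.succ (Fin.succAbove 0)`
  is `A.map Int.cast` entrywise (`Fin.succAbove_zero`); `Int.cast_det`.
* `hat_injective`, `hat_surjective`: `(hat A).det = 1` is a unit, so `hat A` is invertible.
-/

namespace Vale.Agent.H55.TB

open Matrix Vale.Agent.H55.Tamed

theorem hat_mulVec_zero (A : Matrix (Fin 3) (Fin 3) ℤ) (v : Fin 4 → ℝ) :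
    (hat A *ᵥ v) 0 = v 0 := by
  rw [Matrix.mulVec, dotProduct, Fin.sum_univ_succ]
  simp only [hat_zero_zero, hat_zero_succ, zero_mul, one_mul, Finset.sum_const_zero, add_zero]

theorem tbh_mulVec_succ (A : Matrix (Fin 3) (Fin 3) ℤ) (v : Fin 4 → ℝ) (a : Fin 3) :
    (hat A *ᵥ v) a.succ = ∑ b : Fin 3, (A a b : ℝ) * v b.succ := by
  rw [Matrix.mulVec, dotProduct, Fin.sum_univ_succ]
  simp only [hat_succ_zero, hat_succ_succ, zero_mul, zero_add]

theorem tbh_single_succ (a : Fin 3) : (Pi.single 0 1 : Fin 4 → ℝ) a.succ = 0 :=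
  Pi.single_eq_of_ne (Fin.succ_ne_zero a) 1

theorem deck_zero (A : Matrix (Fin 3) (Fin 3) ℤ) (x : Fin 4 → ℝ) : deck A x 0 = x 0 + 1 := by
  unfold deck
  rw [Pi.add_apply, hat_mulVec_zero, Pi.single_eq_same]

theorem tbh_deck_succ (A : Matrix (Fin 3) (Fin 3) ℤ) (x : Fin 4 → ℝ) (a : Fin 3) :
    deck A x a.succ = ∑ b : Fin 3, (A a b : ℝ) * x b.succ := by
  unfold deck
  rw [Pi.add_apply, tbh_mulVec_succ, tbh_single_succ, add_zero]

theorem deck_single (A : Matrix (Fin 3) (Fin 3) ℤ) (t : ℝ) :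
    deck A (Pi.single 0 t) = Pi.single 0 (t + 1) := by
  funext i
  refine Fin.cases ?_ (fun a => ?_) i
  · rw [deck_zero, Pi.single_eq_same, Pi.single_eq_same]
  · rw [tbh_deck_succ, Pi.single_eq_of_ne (Fin.succ_ne_zero a)]
    refine Finset.sum_eq_zero (fun b _ => ?_)
    rw [Pi.single_eq_of_ne (Fin.succ_ne_zero b), mul_zero]

theorem deck_cons4 (A : Matrix (Fin 3) (Fin 3) ℤ) (t : ℝ) (y : Fin 3 → ℝ) :
    deck A (cons4 t y) = cons4 (t + 1) ((A.map (Int.cast : ℤ → ℝ)) *ᵥ y) := by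
  funext i
  refine Fin.cases ?_ (fun a => ?_) i
  · rw [deck_zero, cons4_zero, cons4_zero]
  · rw [tbh_deck_succ, cons4_succ, Matrix.mulVec, dotProduct]
    simp only [cons4_succ, Matrix.map_apply]

theorem tbh_minor (A : Matrix (Fin 3) (Fin 3) ℤ) :
    (hat A).submatrix Fin.succ (Fin.succAbove 0) = A.map (fun x : ℤ => (x : ℝ)) := by
  ext a b
  rw [Matrix.submatrix_apply, Fin.succAbove_zero, hat_succ_succ, Matrix.map_apply]

theorem hat_det (A : Matrix (Fin 3) (Fin 3) ℤ) : (hat A).det = ((A.det : ℤ) : ℝ) := by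
  rw [Matrix.det_succ_row_zero, Fin.sum_univ_succ]
  simp only [hat_zero_zero, hat_zero_succ, mul_zero, zero_mul, Finset.sum_const_zero, add_zero]
  rw [tbh_minor, ← Int.cast_det]
  simp

theorem tbh_det_one (A : Matrix (Fin 3) (Fin 3) ℤ) (hA : A.det = 1) : (hat A).det = 1 := by
  rw [hat_det, hA]
  simp

theorem hat_injective (A : Matrix (Fin 3) (Fin 3) ℤ) (hA : A.det = 1) (v : Fin 4 → ℝ)
    (h : hat A *ᵥ v = 0) : v = 0 := by
  have hdet : (hat A).det ≠ 0 := by
    rw [tbh_det_one A hA]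
    exact one_ne_zero
  exact Matrix.eq_zero_of_mulVec_eq_zero hdet h

theorem hat_surjective (A : Matrix (Fin 3) (Fin 3) ℤ) (hA : A.det = 1) (w : Fin 4 → ℝ) :
    ∃ v : Fin 4 → ℝ, hat A *ᵥ v = w := by
  have hu : IsUnit (hat A).det := by
    rw [tbh_det_one A hA]
    exact isUnit_one
  refine ⟨(hat A)⁻¹ *ᵥ w, ?_⟩
  rw [Matrix.mulVec_mulVec, Matrix.mul_nonsing_inv _ hu, Matrix.one_mulVec]

end Vale.Agent.H55.TB
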