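import Vale.Agent.H55.TB.Avg
import Vale.Agent.H55.TB.Hat

/-!
ROW TB-EQUIV (statement proved; helper lemmas carry the stem `tbe_`; `tb_avg_comp` from
`Avg.lean` and `deck_cons4` from `Hat.lean` are used as stated).  The constant spatial form is invariant
under the monodromy.

Entrywise (`Matrix.ext`, then `Fin.cases` on both indices; expand the products with
`Matrix.mul_apply`, `Matrix.transpose_apply`, `Fin.sum_univ_succ`, and the entries of `hat A`):
* an index `0`: both sides vanish (`Om0 0 i = 0`, `Om0 i 0 = 0`, `hat A 0 b.succ = 0`).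
* both indices successors, say of `a` and `b`: the left side is `∑ c d : Fin 3, A c a * Om0 c.succ d.succ * A d b`.
  From `homeq (cons4 0 y)` and `deck_cons4 A 0 y`, the entry at these indices:
    `om (cons4 0 y) a.succ b.succ
      = ∑ c d : Fin 3, A c a * om (cons4 (0 + 1) (AR *ᵥ y)) c.succ d.succ * A d b`
  with `AR = A.map Int.cast`.  Integrate over `y ∈ Icc 0 1` (`avg f t` is by definition
  `∫ y in Icc 0 1, f (cons4 t y)`; linearity: `MeasureTheory.integral_finsetSum`,
  `MeasureTheory.integral_const_mul` / `integral_mul_const`; integrability: continuous functions on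
  the compact box, `Continuous.integrableOn_Icc`), and apply `tb_avg_comp` to
  `F y = om (cons4 (0 + 1) y) c.succ d.succ` (continuous; periodic by `hoper` and
  `Vale.Agent.H55.Tamed.cons4_add_space` with `s = 1`).  With `havg` at `t = 0` and `t = 0 + 1`
  this is the claim.
-/

namespace Vale.Agent.H55.TB

open Matrix Vale.Agent.H55.Tamed
open scoped ContDiff

/-- The spatial entries of the congruence by `hat A`. -/
theorem tbe_entry (A : Matrix (Fin 3) (Fin 3) ℤ) (M : Matrix (Fin 4) (Fin 4) ℝ) (a b : Fin 3) :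
    ((hat A)ᵀ * M * hat A) a.succ b.succ
      = ∑ c : Fin 3, ∑ d : Fin 3, (A c a : ℝ) * M c.succ d.succ * (A d b : ℝ) := by
  have h1 : ∀ k : Fin 4, ((hat A)ᵀ * M) a.succ k = ∑ c : Fin 3, (A c a : ℝ) * M c.succ k := by
    intro k
    rw [Matrix.mul_apply, Fin.sum_univ_succ]
    simp only [Matrix.transpose_apply, hat_zero_succ, zero_mul, zero_add, hat_succ_succ]
  rw [Matrix.mul_apply, Fin.sum_univ_succ, hat_zero_succ, mul_zero, zero_add, Finset.sum_comm]
  refine Finset.sum_congr rfl (fun d _ => ?_)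
  rw [h1, hat_succ_succ, Finset.sum_mul]

/-- Linearity of the integral for the double sum. -/
theorem tbe_integral (μ : MeasureTheory.Measure (Fin 3 → ℝ))
    (f : Fin 3 → Fin 3 → (Fin 3 → ℝ) → ℝ) (k l : Fin 3 → ℝ)
    (hf : ∀ c d, MeasureTheory.Integrable (f c d) μ) :
    ∫ y, (∑ c : Fin 3, ∑ d : Fin 3, k c * f c d y * l d) ∂μ
      = ∑ c : Fin 3, ∑ d : Fin 3, k c * (∫ y, f c d y ∂μ) * l d := by
  rw [MeasureTheory.integral_finsetSum]
  · refine Finset.sum_congr rfl (fun c _ => ?_)
    rw [MeasureTheory.integral_finsetSum]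
    · refine Finset.sum_congr rfl (fun d _ => ?_)
      rw [MeasureTheory.integral_mul_const, MeasureTheory.integral_const_mul]
    · intro d _
      exact ((hf c d).const_mul (k c)).mul_const (l d)
  · intro c _
    exact MeasureTheory.integrable_finsetSum _
      (fun d _ => ((hf c d).const_mul (k c)).mul_const (l d))

/-- The spatial entries of the averaged form are invariant. -/
theorem tbe_key (A : Matrix (Fin 3) (Fin 3) ℤ) (hA : A.det = 1)
    (om : (Fin 4 → ℝ) → Matrix (Fin 4) (Fin 4) ℝ) (hos : SmoothField om)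
    (hoper : ∀ (x : Fin 4 → ℝ) (i : Fin 3), om (x + Pi.single i.succ 1) = om x)
    (homeq : ∀ x, (hat A)ᵀ * om (deck A x) * hat A = om x)
    (Om0 : Matrix (Fin 4) (Fin 4) ℝ)
    (havg : ∀ (t : ℝ) (a b : Fin 3),
      Om0 a.succ b.succ = avg (fun x => om x a.succ b.succ) t) (a b : Fin 3) :
    Om0 a.succ b.succ
      = ∑ c : Fin 3, ∑ d : Fin 3, (A c a : ℝ) * Om0 c.succ d.succ * (A d b : ℝ) := by
  have hpt : ∀ y : Fin 3 → ℝ, om (cons4 0 y) a.succ b.succ
      = ∑ c : Fin 3, ∑ d : Fin 3, (A c a : ℝ)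
          * om (cons4 (0 + 1) ((A.map (Int.cast : ℤ → ℝ)) *ᵥ y)) c.succ d.succ * (A d b : ℝ) := by
    intro y
    have h := homeq (cons4 0 y)
    rw [deck_cons4] at h
    rw [← tbe_entry, h]
  have hF : ∀ c d : Fin 3,
      Continuous (fun y : Fin 3 → ℝ => om (cons4 (0 + 1) y) c.succ d.succ) := by
    intro c d
    exact (hos c.succ d.succ).continuous.comp
      (continuous_cons4.comp (continuous_const.prodMk continuous_id))
  have hper : ∀ (c d : Fin 3) (y : Fin 3 → ℝ) (j : Fin 3),
      om (cons4 (0 + 1) (y + Pi.single j 1)) c.succ d.succ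
        = om (cons4 (0 + 1) y) c.succ d.succ := by
    intro c d y j
    have h := cons4_add_space (0 + 1) 1 y j
    rw [one_smul, one_smul] at h
    rw [h, hoper]
  have hint : ∀ c d : Fin 3, MeasureTheory.Integrable
      (fun y : Fin 3 → ℝ =>
        om (cons4 (0 + 1) ((A.map (Int.cast : ℤ → ℝ)) *ᵥ y)) c.succ d.succ)
      (MeasureTheory.volume.restrict (Set.Icc (0 : Fin 3 → ℝ) 1)) := by
    intro c d
    have hc : Continuous (fun y : Fin 3 → ℝ =>
        om (cons4 (0 + 1) ((A.map (Int.cast : ℤ → ℝ)) *ᵥ y)) c.succ d.succ) :=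
      (hF c d).comp (Continuous.matrix_mulVec continuous_const continuous_id)
    exact hc.integrableOn_Icc
  have hlast : ∀ c d : Fin 3,
      (∫ y in Set.Icc (0 : Fin 3 → ℝ) 1,
        om (cons4 (0 + 1) ((A.map (Int.cast : ℤ → ℝ)) *ᵥ y)) c.succ d.succ)
        = Om0 c.succ d.succ := by
    intro c d
    have h1 := tb_avg_comp (fun y => om (cons4 (0 + 1) y) c.succ d.succ) (hF c d) (hper c d) A hA
    rw [havg (0 + 1) c d]
    exact h1
  calc Om0 a.succ b.succ = avg (fun x => om x a.succ b.succ) 0 := havg 0 a b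
    _ = ∫ y in Set.Icc (0 : Fin 3 → ℝ) 1, om (cons4 0 y) a.succ b.succ := rfl
    _ = ∫ y in Set.Icc (0 : Fin 3 → ℝ) 1, ∑ c : Fin 3, ∑ d : Fin 3, (A c a : ℝ)
          * om (cons4 (0 + 1) ((A.map (Int.cast : ℤ → ℝ)) *ᵥ y)) c.succ d.succ
          * (A d b : ℝ) := by
        simp only [hpt]
    _ = ∑ c : Fin 3, ∑ d : Fin 3, (A c a : ℝ)
          * (∫ y in Set.Icc (0 : Fin 3 → ℝ) 1,
              om (cons4 (0 + 1) ((A.map (Int.cast : ℤ → ℝ)) *ᵥ y)) c.succ d.succ)
          * (A d b : ℝ) :=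
        tbe_integral _
          (fun c d y => om (cons4 (0 + 1) ((A.map (Int.cast : ℤ → ℝ)) *ᵥ y)) c.succ d.succ)
          (fun c => (A c a : ℝ)) (fun d => (A d b : ℝ)) hint
    _ = ∑ c : Fin 3, ∑ d : Fin 3, (A c a : ℝ) * Om0 c.succ d.succ * (A d b : ℝ) := by
        refine Finset.sum_congr rfl (fun c _ => Finset.sum_congr rfl (fun d _ => ?_))
        rw [hlast c d]

theorem tb_equiv (A : Matrix (Fin 3) (Fin 3) ℤ) (hA : A.det = 1)
    (om : (Fin 4 → ℝ) → Matrix (Fin 4) (Fin 4) ℝ) (hos : SmoothField om)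
    (hoper : ∀ (x : Fin 4 → ℝ) (i : Fin 3), om (x + Pi.single i.succ 1) = om x)
    (homeq : ∀ x, (hat A)ᵀ * om (deck A x) * hat A = om x)
    (Om0 : Matrix (Fin 4) (Fin 4) ℝ) (h0 : ∀ i, Om0 0 i = 0) (h0' : ∀ i, Om0 i 0 = 0)
    (havg : ∀ (t : ℝ) (a b : Fin 3),
      Om0 a.succ b.succ = avg (fun x => om x a.succ b.succ) t) :
    (hat A)ᵀ * Om0 * hat A = Om0 := by
  ext i j
  refine Fin.cases ?_ (fun a => ?_) i
  · rw [h0 j, Matrix.mul_apply]
    apply Finset.sum_eq_zero
    intro k _
    have h1 : ((hat A)ᵀ * Om0) 0 k = 0 := by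
      rw [Matrix.mul_apply, Fin.sum_univ_succ]
      simp only [Matrix.transpose_apply, hat_succ_zero, zero_mul, Finset.sum_const_zero,
        add_zero, h0, mul_zero]
    rw [h1, zero_mul]
  · refine Fin.cases ?_ (fun b => ?_) j
    · rw [h0' a.succ, Matrix.mul_apply, Fin.sum_univ_succ]
      simp only [hat_succ_zero, mul_zero, Finset.sum_const_zero, add_zero, hat_zero_zero,
        mul_one]
      rw [Matrix.mul_apply]
      apply Finset.sum_eq_zero
      intro l _
      rw [h0' l, mul_zero]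
    · rw [tbe_entry]
      exact (tbe_key A hA om hos hoper homeq Om0 havg a b).symm

end Vale.Agent.H55.TB
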