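import Vale.Agent.H55.TB.Basic

/-!
ROW TB-LINE (closed; helper lemmas carry the stem `tbl_`).  A skew `J`-invariant matrix with the spatial entries of `β` lies on
the line `c ↦ corrected c J β`.

Facts from `Vale/Agent/H55/TamedLinAlg.lean` (namespace `Vale.Agent.H55.Tamed`):
`corrected c J Om = Om - 2 • wedge e0 (avec J Om) + c • wedge e0 (fvec J)`,
`corrected_transpose` (skew), `corrected_inv` (`Jᵀ * corrected c J Om * J = corrected c J Om`),
`corrected_apply_of_ne` (entries with both indices `≠ 0` are those of `Om`),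
`wedge a b = vecMulVec a b - vecMulVec b a`, `e0 = Pi.single 0 1`,
`T_wedge : Jᵀ * wedge a b * J = wedge (Jᵀ *ᵥ a) (Jᵀ *ᵥ b)`, `JT_e0 : Jᵀ *ᵥ e0 = -fvec J`,
`vecMul_wedge : X ᵥ* wedge a b = (X ⬝ᵥ a) • b - (X ⬝ᵥ b) • a`,
`Xvec_zero : Xvec J 0 = 1`, `fvec_dot_Xvec : fvec J ⬝ᵥ Xvec J = 0` (needs `hJ`),
`e0_dot`, `dot_e0`, `wedge_neg_left`.

Proof.  `D = M - corrected 0 J β` is skew, satisfies `Jᵀ * D * J = D`, and `D a b = 0` for
`a, b ≠ 0`.  With `α = fun j => D 0 j` (so `α 0 = 0`): `D = wedge e0 α` (entrywise; `Fin.cases`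
or `fin_cases`; `D a 0 = -D 0 a`).  Then
  `wedge e0 α = Jᵀ * wedge e0 α * J = wedge (-fvec J) (Jᵀ *ᵥ α)`.
Apply `Xvec J ᵥ* ·` to both sides (`X = Xvec J`, `X ⬝ᵥ e0 = 1`, `X ⬝ᵥ fvec J = 0`):
  `α - (X ⬝ᵥ α) • e0 = (X ⬝ᵥ (Jᵀ *ᵥ α)) • fvec J`.
Hence `α = c • fvec J + (X ⬝ᵥ α) • e0` with `c = X ⬝ᵥ (Jᵀ *ᵥ α)`, and
`wedge e0 α = c • wedge e0 (fvec J)` (`wedge e0 e0 = 0`, bilinearity of `wedge`: unfold and
`Matrix.ext`, `simp`, `ring`).  So `M = corrected 0 J β + c • wedge e0 (fvec J) = corrected c J β`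
(unfold `corrected`; `zero_smul`, `add_zero`).
-/

namespace Vale.Agent.H55.TB

open Matrix Vale.Agent.H55.Tamed

/-- a skew matrix whose spatial block vanishes is `e0 ∧ (row 0)` -/
theorem tbl_eq_wedge (D : Matrix (Fin 4) (Fin 4) ℝ) (hDT : Dᵀ = -D)
    (hD0 : ∀ a b : Fin 4, a ≠ 0 → b ≠ 0 → D a b = 0) :
    D = wedge e0 (fun j => D 0 j) := by
  have hskew : ∀ a b : Fin 4, D a b = -D b a := by
    intro a b
    have h := congrFun (congrFun hDT b) a
    simp only [Matrix.transpose_apply, Matrix.neg_apply] at h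
    linarith
  have hD00 : D 0 0 = 0 := by
    have h := hskew 0 0
    linarith
  ext a b
  simp only [wedge, Matrix.sub_apply, Matrix.vecMulVec_apply, e0, Pi.single_apply]
  by_cases ha : a = 0
  · subst ha
    by_cases hb : b = 0
    · subst hb
      simp [hD00]
    · simp [hb]
  · by_cases hb : b = 0
    · subst hb
      simp only [ha, if_false, if_true, zero_mul, mul_one, zero_sub]
      exact hskew a 0
    · simp [ha, hb, hD0 a b ha hb]

/-- bilinearity of the wedge in the special shape needed below -/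
theorem tbl_wedge_lin (s c : ℝ) (f : Fin 4 → ℝ) :
    wedge e0 (s • e0 + c • f) = c • wedge e0 f := by
  ext a b
  simp only [wedge, Matrix.sub_apply, Matrix.vecMulVec_apply, Matrix.smul_apply, Pi.add_apply,
    Pi.smul_apply, smul_eq_mul]
  ring

theorem tbl_corrected_add (c : ℝ) (J β : Matrix (Fin 4) (Fin 4) ℝ) :
    corrected c J β = corrected 0 J β + c • wedge e0 (fvec J) := by
  unfold corrected
  rw [zero_smul, add_zero]

theorem tb_line (J β M : Matrix (Fin 4) (Fin 4) ℝ) (hJ : J * J = -1) (hβ : βᵀ = -β)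
    (hM : Mᵀ = -M) (hMJ : Jᵀ * M * J = M)
    (hsp : ∀ a b : Fin 4, a ≠ 0 → b ≠ 0 → M a b = β a b) :
    ∃ c : ℝ, M = corrected c J β := by
  obtain ⟨D, hDdef⟩ : ∃ D : Matrix (Fin 4) (Fin 4) ℝ, D = M - corrected 0 J β := ⟨_, rfl⟩
  have hDT : Dᵀ = -D := by
    rw [hDdef, Matrix.transpose_sub, hM, corrected_transpose 0 J β hβ]
    abel
  have hDJ : Jᵀ * D * J = D := by
    rw [hDdef, Matrix.mul_sub, Matrix.sub_mul, hMJ, corrected_inv 0 J β hJ hβ]
  have hD0 : ∀ a b : Fin 4, a ≠ 0 → b ≠ 0 → D a b = 0 := by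
    intro a b ha hb
    rw [hDdef, Matrix.sub_apply, hsp a b ha hb, corrected_apply_of_ne 0 J β a b ha hb, sub_self]
  obtain ⟨α, hα⟩ : ∃ α : Fin 4 → ℝ, α = fun j => D 0 j := ⟨_, rfl⟩
  have hDw : D = wedge e0 α := by
    rw [hα]
    exact tbl_eq_wedge D hDT hD0
  have hkey : wedge e0 α = wedge (-fvec J) (Jᵀ *ᵥ α) := by
    have h1 : Jᵀ * wedge e0 α * J = wedge e0 α := by
      rw [← hDw]
      exact hDJ
    rw [T_wedge, JT_e0] at h1
    exact h1.symm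
  have hX : Xvec J ᵥ* wedge e0 α = Xvec J ᵥ* wedge (-fvec J) (Jᵀ *ᵥ α) := by rw [← hkey]
  rw [vecMul_wedge, vecMul_wedge, dot_e0, Xvec_zero, dotProduct_neg,
    dotProduct_comm (Xvec J) (fvec J), fvec_dot_Xvec J hJ] at hX
  obtain ⟨c, hc⟩ : ∃ c : ℝ, c = Xvec J ⬝ᵥ (Jᵀ *ᵥ α) := ⟨_, rfl⟩
  obtain ⟨s, hs⟩ : ∃ s : ℝ, s = Xvec J ⬝ᵥ α := ⟨_, rfl⟩
  rw [← hc, ← hs] at hX
  have hαeq : α = s • e0 + c • fvec J := by
    funext j
    have hj := congrFun hX j
    simp only [Pi.sub_apply, Pi.smul_apply, smul_eq_mul, Pi.neg_apply, Pi.add_apply] at hj ⊢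
    linarith
  refine ⟨c, ?_⟩
  have hM' : M = corrected 0 J β + D := by
    rw [hDdef]
    abel
  rw [hM', hDw, hαeq, tbl_wedge_lin, ← tbl_corrected_add]

end Vale.Agent.H55.TB
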