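import Vale.Agent.H55.TB.Hat

/-!
ROW TB-PROP.  Taming on `[0, 1]` propagates to the whole line along the monodromy.

Let `H = hat A`, `T t : ∀ v ≠ 0, 0 < v ⬝ᵥ (Ct t *ᵥ (Jt t *ᵥ v))`.
Key identity (from `hCeq t`, `hJeq t`): for every `v`,
  `v ⬝ᵥ (Ct t *ᵥ (Jt t *ᵥ v)) = (H *ᵥ v) ⬝ᵥ (Ct (t + 1) *ᵥ (Jt (t + 1) *ᵥ (H *ᵥ v)))`.
* `T (t + 1) → T t`: `H *ᵥ v ≠ 0` for `v ≠ 0` (`hat_injective`).
* `T t → T (t + 1)`: every `w ≠ 0` is `H *ᵥ v` with `v ≠ 0` (`hat_surjective`).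
* So `T t ↔ T (t + n)` for every natural `n`, and every real `t` is `Int.fract t + ⌊t⌋` with
  `Int.fract t ∈ Ico 0 1 ⊆ Icc 0 1`.
-/

namespace Vale.Agent.H55.TB

open Matrix Vale.Agent.H55.Tamed

theorem tbr_key (H J J' C C' : Matrix (Fin 4) (Fin 4) ℝ)
    (hJ : J' * H = H * J) (hC : Hᵀ * C' * H = C) (v : Fin 4 → ℝ) :
    v ⬝ᵥ (C *ᵥ (J *ᵥ v)) = (H *ᵥ v) ⬝ᵥ (C' *ᵥ (J' *ᵥ (H *ᵥ v))) := by
  have hM : Hᵀ * C' * H * J = Hᵀ * C' * (J' * H) := by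
    rw [hJ]; simp only [Matrix.mul_assoc]
  rw [← hC]
  calc v ⬝ᵥ ((Hᵀ * C' * H) *ᵥ (J *ᵥ v)) = v ⬝ᵥ ((Hᵀ * C' * H * J) *ᵥ v) := by
        rw [Matrix.mulVec_mulVec]
    _ = v ⬝ᵥ ((Hᵀ * C' * (J' * H)) *ᵥ v) := by rw [hM]
    _ = v ⬝ᵥ (Hᵀ *ᵥ (C' *ᵥ (J' *ᵥ (H *ᵥ v)))) := by
        simp only [Matrix.mulVec_mulVec, Matrix.mul_assoc]
    _ = (H *ᵥ v) ⬝ᵥ (C' *ᵥ (J' *ᵥ (H *ᵥ v))) := by
        rw [Matrix.dotProduct_mulVec, Matrix.vecMul_transpose]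

theorem tb_tame_all (A : Matrix (Fin 3) (Fin 3) ℤ) (hA : A.det = 1)
    (Jt Ct : ℝ → Matrix (Fin 4) (Fin 4) ℝ)
    (hJeq : ∀ t, Jt (t + 1) * hat A = hat A * Jt t)
    (hCeq : ∀ t, (hat A)ᵀ * Ct (t + 1) * hat A = Ct t)
    (h01 : ∀ t ∈ Set.Icc (0 : ℝ) 1, ∀ v : Fin 4 → ℝ, v ≠ 0 →
      0 < v ⬝ᵥ (Ct t *ᵥ (Jt t *ᵥ v))) :
    ∀ t, ∀ v : Fin 4 → ℝ, v ≠ 0 → 0 < v ⬝ᵥ (Ct t *ᵥ (Jt t *ᵥ v)) := by
  have hkey : ∀ (t : ℝ) (v : Fin 4 → ℝ), v ⬝ᵥ (Ct t *ᵥ (Jt t *ᵥ v))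
      = (hat A *ᵥ v) ⬝ᵥ (Ct (t + 1) *ᵥ (Jt (t + 1) *ᵥ (hat A *ᵥ v))) :=
    fun t v => tbr_key (hat A) (Jt t) (Jt (t + 1)) (Ct t) (Ct (t + 1)) (hJeq t) (hCeq t) v
  have hdown : ∀ t : ℝ, (∀ v : Fin 4 → ℝ, v ≠ 0 →
      0 < v ⬝ᵥ (Ct (t + 1) *ᵥ (Jt (t + 1) *ᵥ v))) →
      ∀ v : Fin 4 → ℝ, v ≠ 0 → 0 < v ⬝ᵥ (Ct t *ᵥ (Jt t *ᵥ v)) := by
    intro t hT v hv
    rw [hkey t v]
    exact hT _ (fun h => hv (hat_injective A hA v h))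
  have hup : ∀ t : ℝ, (∀ v : Fin 4 → ℝ, v ≠ 0 → 0 < v ⬝ᵥ (Ct t *ᵥ (Jt t *ᵥ v))) →
      ∀ v : Fin 4 → ℝ, v ≠ 0 → 0 < v ⬝ᵥ (Ct (t + 1) *ᵥ (Jt (t + 1) *ᵥ v)) := by
    intro t hT w hw
    obtain ⟨v, rfl⟩ := hat_surjective A hA w
    have hv : v ≠ 0 := by
      intro h
      apply hw
      rw [h, Matrix.mulVec_zero]
    rw [← hkey t v]
    exact hT v hv
  have hupn : ∀ (n : ℕ) (t : ℝ), (∀ v : Fin 4 → ℝ, v ≠ 0 →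
      0 < v ⬝ᵥ (Ct t *ᵥ (Jt t *ᵥ v))) →
      ∀ v : Fin 4 → ℝ, v ≠ 0 → 0 < v ⬝ᵥ (Ct (t + n) *ᵥ (Jt (t + n) *ᵥ v)) := by
    intro n
    induction n with
    | zero => intro t hT; simpa using hT
    | succ k ih =>
      intro t hT
      have h1 := hup (t + k) (ih t hT)
      have e : t + ((k + 1 : ℕ) : ℝ) = t + k + 1 := by push_cast; ring
      rw [e]
      exact h1
  have hdownn : ∀ (n : ℕ) (t : ℝ), (∀ v : Fin 4 → ℝ, v ≠ 0 →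
      0 < v ⬝ᵥ (Ct (t + n) *ᵥ (Jt (t + n) *ᵥ v))) →
      ∀ v : Fin 4 → ℝ, v ≠ 0 → 0 < v ⬝ᵥ (Ct t *ᵥ (Jt t *ᵥ v)) := by
    intro n
    induction n with
    | zero => intro t hT; simpa using hT
    | succ k ih =>
      intro t hT
      apply ih t
      apply hdown (t + k)
      have e : t + ((k + 1 : ℕ) : ℝ) = t + k + 1 := by push_cast; ring
      rw [e] at hT
      exact hT
  intro t
  have hs : Int.fract t ∈ Set.Icc (0 : ℝ) 1 := ⟨Int.fract_nonneg t, (Int.fract_lt_one t).le⟩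
  have hT0 := h01 (Int.fract t) hs
  have ht : t = Int.fract t + (⌊t⌋ : ℝ) := (Int.fract_add_floor t).symm
  rcases le_or_gt 0 ⌊t⌋ with hz | hz
  · obtain ⟨n, hn⟩ := Int.eq_ofNat_of_zero_le hz
    have e : t = Int.fract t + (n : ℝ) := by
      rw [ht, hn]; simp
    rw [e]
    exact hupn n (Int.fract t) hT0
  · obtain ⟨n, hn⟩ := Int.exists_eq_neg_ofNat hz.le
    have e : t + (n : ℝ) = Int.fract t := by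
      have h2 : (⌊t⌋ : ℝ) = -(n : ℝ) := by rw [hn]; simp
      rw [Int.fract]; linarith
    apply hdownn n t
    rw [e]
    exact hT0

end Vale.Agent.H55.TB
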