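import Vale.Agent.H55.TB.Pf
import Vale.Agent.H55.TB.Line

/-!
ROW TB-TRANSPORT (replace the `sorry`, keep the statement exactly; helper lemmas: fresh names with
stem `tbt_` in this file; `pf4_hat` (`Pf.lean`) and `tb_line` (`Line.lean`) are to be used AS
STATED, whether or not their proofs have landed).  Pulling the corrected form back by the
monodromy stays on the line of corrected forms and preserves the Pfaffian.

Let `H = hat A`, `C = corrected c1 J1 β` (skew by `corrected_transpose`, `J1ᵀ * C * J1 = C` by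
`corrected_inv`, `C i j = β i j` for `i, j ≠ 0` by `corrected_apply_of_ne`), `M = Hᵀ * C * H`.
* `Mᵀ = -M` (`Matrix.transpose_mul`, `Matrix.transpose_transpose`).
* `J0ᵀ * M * J0 = M`: `H * J0 = J1 * H` (`hJeq`), so
  `J0ᵀ * Hᵀ * C * H * J0 = (H * J0)ᵀ * C * (H * J0) = (J1 * H)ᵀ * C * (J1 * H)
    = Hᵀ * (J1ᵀ * C * J1) * H = M`.
* `M a b = β a b` for `a, b ≠ 0` (write `a = a'.succ`, `b = b'.succ`,
  `Fin.exists_succ_eq_of_ne_zero`): `M a b = ∑ i j, H i a * C i j * H j b`; the terms with `i = 0`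
  or `j = 0` vanish (`hat A 0 a'.succ = 0`), in the others `C i j = β i j`; the same expansion of
  `(Hᵀ * β * H) a b` (which equals `β a b` by `hβA`) gives the same sum.
  (`Matrix.mul_apply`, `Matrix.transpose_apply`, `Fin.sum_univ_succ`.)
* `tb_line J0 β M …` gives `c0` with `M = corrected c0 J0 β`; `pf4_hat A hA C _` gives
  `pf4 M = pf4 C`.
-/

namespace Vale.Agent.H55.TB

open Matrix Vale.Agent.H55.Tamed

theorem tb_transport (A : Matrix (Fin 3) (Fin 3) ℤ) (hA : A.det = 1)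
    (J0 J1 β : Matrix (Fin 4) (Fin 4) ℝ) (hJ0 : J0 * J0 = -1) (hJ1 : J1 * J1 = -1)
    (hβ : βᵀ = -β) (hβA : (hat A)ᵀ * β * hat A = β) (hJeq : J1 * hat A = hat A * J0)
    (c1 : ℝ) :
    ∃ c0 : ℝ, (hat A)ᵀ * corrected c1 J1 β * hat A = corrected c0 J0 β ∧
      pf4 (corrected c0 J0 β) = pf4 (corrected c1 J1 β) := by
  have hCt : (corrected c1 J1 β)ᵀ = -corrected c1 J1 β := corrected_transpose c1 J1 β hβ
  have hCinv : J1ᵀ * corrected c1 J1 β * J1 = corrected c1 J1 β := corrected_inv c1 J1 β hJ1 hβ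
  have hCsp : ∀ i j : Fin 4, i ≠ 0 → j ≠ 0 → corrected c1 J1 β i j = β i j :=
    fun i j hi hj => corrected_apply_of_ne c1 J1 β i j hi hj
  obtain ⟨C, hC⟩ : ∃ C : Matrix (Fin 4) (Fin 4) ℝ, C = corrected c1 J1 β := ⟨_, rfl⟩
  rw [← hC] at hCt hCinv hCsp ⊢
  obtain ⟨H, hH⟩ : ∃ H : Matrix (Fin 4) (Fin 4) ℝ, H = hat A := ⟨_, rfl⟩
  have hH0 : ∀ b : Fin 3, H 0 b.succ = 0 := fun b => by rw [hH]; rfl
  have hHs : ∀ a b : Fin 3, H a.succ b.succ = (A a b : ℝ) := fun a b => by rw [hH]; rfl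
  have hMt : (Hᵀ * C * H)ᵀ = -(Hᵀ * C * H) := by
    rw [Matrix.transpose_mul, Matrix.transpose_mul, Matrix.transpose_transpose, hCt]
    simp [Matrix.mul_assoc]
  have hMJ : J0ᵀ * (Hᵀ * C * H) * J0 = Hᵀ * C * H := by
    have h1 : H * J0 = J1 * H := by rw [hH]; exact hJeq.symm
    calc J0ᵀ * (Hᵀ * C * H) * J0 = (H * J0)ᵀ * C * (H * J0) := by
          rw [Matrix.transpose_mul]
          simp only [Matrix.mul_assoc]
      _ = (J1 * H)ᵀ * C * (J1 * H) := by rw [h1]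
      _ = Hᵀ * (J1ᵀ * C * J1) * H := by
          rw [Matrix.transpose_mul]
          simp only [Matrix.mul_assoc]
      _ = Hᵀ * C * H := by rw [hCinv]
  have hsp : ∀ a b : Fin 4, a ≠ 0 → b ≠ 0 → (Hᵀ * C * H) a b = β a b := by
    intro a b ha hb
    obtain ⟨a', rfl⟩ := Fin.exists_succ_eq_of_ne_zero ha
    obtain ⟨b', rfl⟩ := Fin.exists_succ_eq_of_ne_zero hb
    have hβab : β a'.succ b'.succ = (Hᵀ * β * H) a'.succ b'.succ := by rw [hH, hβA]
    rw [hβab]
    simp only [Matrix.mul_apply, Matrix.transpose_apply]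
    rw [Fin.sum_univ_succ, Fin.sum_univ_succ (f := fun j => (∑ i, H i a'.succ * β i j) * H j b'.succ)]
    simp only [hH0, mul_zero, zero_add]
    refine Finset.sum_congr rfl fun j _ => ?_
    congr 1
    rw [Fin.sum_univ_succ, Fin.sum_univ_succ (f := fun i => H i a'.succ * β i j.succ)]
    simp only [hH0, zero_mul, zero_add]
    refine Finset.sum_congr rfl fun i _ => ?_
    rw [hCsp i.succ j.succ (Fin.succ_ne_zero i) (Fin.succ_ne_zero j)]
  obtain ⟨c0, hc0⟩ := tb_line J0 β (Hᵀ * C * H) hJ0 hβ hMt hMJ hsp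
  refine ⟨c0, ?_, ?_⟩
  · rw [← hH]
    exact hc0
  · rw [← hc0, hH]
    exact pf4_hat A hA C hCt

end Vale.Agent.H55.TB
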