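import Vale.Agent.H55.TB.Spatial
import Vale.Agent.H55.TB.Equiv
import Vale.Agent.H55.TB.Closed
import Vale.Agent.H55.TB.Transport
import Vale.Agent.H55.TB.Choose
import Vale.Agent.H55.TB.Prop

/-!
Tamed-to-compatible on torus bundles over the circle: for the mapping torus of `A ∈ SL(3, ℤ)`,
an almost complex structure that is invariant under the fibre translations and tamed by some
symplectic form is compatible with a symplectic form.

The compatible form is `corrected (c t) (J t) β`, where `β` is the constant spatial part of the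
fibre average of the taming form and `c t` is chosen so that the Pfaffian is constant; this
makes the form invariant under the deck transformation.
-/

namespace Vale.Agent.H55.TB

open Matrix Vale.Agent.H55.Tamed
open scoped ContDiff

theorem tb_main (A : Matrix (Fin 3) (Fin 3) ℤ) (hA : A.det = 1)
    (J om : (Fin 4 → ℝ) → Matrix (Fin 4) (Fin 4) ℝ)
    (hJs : SmoothField J) (hJ2 : ∀ x, J x * J x = -1) (hJinv : FiberInvariant J)
    (hJeq : ∀ x, J (deck A x) * hat A = hat A * J x)
    (hos : SmoothField om) (hskew : ∀ x, (om x)ᵀ = -om x)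
    (hoper : ∀ (x : Fin 4 → ℝ) (i : Fin 3), om (x + Pi.single i.succ 1) = om x)
    (homeq : ∀ x, (hat A)ᵀ * om (deck A x) * hat A = om x)
    (hclosed : IsClosedForm om) (htame : Tames om J) :
    ∃ om' : (Fin 4 → ℝ) → Matrix (Fin 4) (Fin 4) ℝ,
      SmoothField om' ∧ (∀ x, (om' x)ᵀ = -om' x) ∧ FiberInvariant om' ∧
      (∀ x, (hat A)ᵀ * om' (deck A x) * hat A = om' x) ∧ IsClosedForm om' ∧
      Tames om' J ∧ ∀ x, (J x)ᵀ * om' x * J x = om' x := by
  obtain ⟨Om0, hOskew, hO0, havg, hplane⟩ :=
    tb_spatial J om hJs hJ2 hJinv hos hskew hoper hclosed htame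
  have hO0' : ∀ i, Om0 i 0 = 0 := by
    intro i
    have h := congrFun (congrFun hOskew 0) i
    simp only [Matrix.transpose_apply, Matrix.neg_apply] at h
    rw [h, hO0 i, neg_zero]
  have hβA := tb_equiv A hA om hos hoper homeq Om0 hO0 hO0' havg
  -- the path of almost complex structures
  set Jt : ℝ → Matrix (Fin 4) (Fin 4) ℝ := fun t => J (Pi.single 0 t) with hJt
  have hJx : ∀ x : Fin 4 → ℝ, J x = Jt (x 0) := fun x =>
    (hJinv x (Pi.single 0 (x 0)) (by simp)).symm
  have hline : ContDiff ℝ ∞ (fun t : ℝ => (Pi.single 0 t : Fin 4 → ℝ)) := by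
    rw [contDiff_pi]
    intro i
    by_cases hi : i = 0
    · subst hi
      simp only [Pi.single_eq_same]
      exact contDiff_id
    · simp only [Pi.single_eq_of_ne hi]
      exact contDiff_const
  have hJts : ∀ i j, ContDiff ℝ ∞ (fun t => Jt t i j) := fun i j => (hJs i j).comp hline
  have hJt2 : ∀ t, Jt t * Jt t = -1 := fun t => hJ2 _
  obtain ⟨c, κ, hcs, hcκ, hc01⟩ := tb_choose Jt Om0 hJts hJt2 hOskew hplane
  have hJteq : ∀ t, Jt (t + 1) * hat A = hat A * Jt t := by
    intro t
    have h := hJeq (Pi.single 0 t)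
    rw [deck_single] at h
    exact h
  have hP1 : ∀ t, P1 (Jt t) Om0 ≠ 0 := fun t =>
    P1_ne_zero (Jt t) Om0 (hJt2 t) hOskew (hplane t)
  -- invariance under the deck transformation
  have hCeq : ∀ t, (hat A)ᵀ * corrected (c (t + 1)) (Jt (t + 1)) Om0 * hat A
      = corrected (c t) (Jt t) Om0 := by
    intro t
    obtain ⟨c0, h1, h2⟩ := tb_transport A hA (Jt t) (Jt (t + 1)) Om0 (hJt2 t) (hJt2 _) hOskew
      hβA (hJteq t) (c (t + 1))
    have h3 : c0 = c t := by
      have e1 := pf4_corrected c0 (Jt t) Om0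
      have e2 := pf4_corrected (c t) (Jt t) Om0
      rw [h2, hcκ (t + 1)] at e1
      rw [hcκ t] at e2
      have h4 : (c0 - c t) * P1 (Jt t) Om0 = 0 := by linarith
      rcases mul_eq_zero.mp h4 with h | h
      · linarith
      · exact absurd h (hP1 t)
    rw [h1, h3]
  have htame_all := tb_tame_all A hA Jt (fun t => corrected (c t) (Jt t) Om0) hJteq hCeq hc01
  have hfib : FiberInvariant (fun x => corrected (c (x 0)) (J x) Om0) := by
    intro x y hxy
    show corrected (c (y 0)) (J y) Om0 = corrected (c (x 0)) (J x) Om0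
    rw [hxy, hJinv x y hxy]
  have hskew' : ∀ x, (corrected (c (x 0)) (J x) Om0)ᵀ = -corrected (c (x 0)) (J x) Om0 :=
    fun x => corrected_transpose _ (J x) Om0 hOskew
  refine ⟨fun x => corrected (c (x 0)) (J x) Om0, ?_, hskew', hfib, ?_, ?_, ?_, ?_⟩
  · intro i j
    have h0 := contDiff_corrected (n := ∞) 0 J (fun _ => Om0) hJs (fun _ _ => contDiff_const)
      hJ2 i j
    have hc0 : ContDiff ℝ ∞ (fun x : Fin 4 → ℝ => c (x 0)) := hcs.comp (contDiff_apply ℝ ℝ 0)
    have hf : ∀ l, ContDiff ℝ ∞ (fun x => fvec (J x) l) := fun l => (hJs 0 l).neg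
    have e : (fun x => corrected (c (x 0)) (J x) Om0 i j) = fun x =>
        corrected 0 (J x) Om0 i j + c (x 0) * (e0 i * fvec (J x) j - fvec (J x) i * e0 j) := by
      funext x
      simp only [corrected, wedge, Matrix.add_apply, Matrix.sub_apply, Matrix.smul_apply,
        Matrix.vecMulVec_apply, smul_eq_mul]
      ring
    rw [e]
    exact h0.add (hc0.mul ((contDiff_const.mul (hf j)).sub ((hf i).mul contDiff_const)))
  · intro x
    show (hat A)ᵀ * corrected (c (deck A x 0)) (J (deck A x)) Om0 * hat A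
      = corrected (c (x 0)) (J x) Om0
    rw [hJx (deck A x), deck_zero, hJx x]
    exact hCeq (x 0)
  · apply tb_closed_of_spatial _ hfib hskew'
    intro x a b ha hb
    have h : (fun y => corrected (c (y 0)) (J y) Om0 a b) = fun _ => Om0 a b :=
      funext (fun y => corrected_apply_of_ne _ (J y) Om0 a b ha hb)
    rw [h]
    unfold coordDeriv
    simp
  · intro x v hv
    have h := htame_all (x 0) v hv
    show 0 < v ⬝ᵥ (corrected (c (x 0)) (J x) Om0 *ᵥ (J x *ᵥ v))
    rw [hJx x]
    exact h
  · exact fun x => corrected_inv _ (J x) Om0 (hJ2 x) hOskew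

end Vale.Agent.H55.TB
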