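import Vale.Agent.H55.TB.Basic

/-!
ROW TB-PF (replace the two `sorry`, keep the statements exactly; helper lemmas: fresh names with
stem `tbp_` in this file).  Two polynomial identities for the Pfaffian
`pf4 M = M 0 1 * M 2 3 - M 0 2 * M 1 3 + M 0 3 * M 1 2`.

* `pf4_hat`: `Pf (Bᵀ M B) = det B * Pf M` for `B = hat A = 1 ⊕ A`, `det A = 1`.
  Write the six numbers `m01 .. m23` for the upper triangle of `M` (the lower triangle is minus
  the upper one and the diagonal vanishes, from `hM` entrywise: `M i i = 0` as `M i i = -M i i`).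
  Expand the four entries `(0,1), (0,2), (0,3), (1,2), (1,3), (2,3)` of `(hat A)ᵀ * M * hat A`
  (`Matrix.mul_apply`, `Matrix.transpose_apply`, `Fin.sum_univ_four`, and the entries of `hat A`;
  note `(1 : Fin 4) = Fin.succ 0` etc., `hat A 1 2 = (A 0 1 : ℝ)` holds by `rfl`), then the claim
  is `(det A) * pf4 M = pf4 M` with `det A` expanded by `Matrix.det_fin_three` and cast to `ℝ`
  (`hA` gives `(A.det : ℝ) = 1`, push the cast through with `Int.cast_sub`, `Int.cast_mul`, ...):
  close with `linear_combination (pf4 M) * hA'` or `ring_nf` + `linear_combination`.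
* `pf4_corrected`: `corrected c J β = β - 2 • wedge e0 (avec J β) + c • wedge e0 (fvec J)`
  (`Vale.Agent.H55.Tamed.corrected`, `wedge a b = vecMulVec a b - vecMulVec b a`,
  `e0 = Pi.single 0 1`).  The entries `(1,2), (1,3), (2,3)` are those of `β`
  (`corrected_apply_of_ne`), and the `(0, a)` entry for `a ≠ 0` is
  `β 0 a - 2 * avec J β a + c * fvec J a`; unfold and `ring`.
-/

namespace Vale.Agent.H55.TB

open Matrix Vale.Agent.H55.Tamed

theorem pf4_hat (A : Matrix (Fin 3) (Fin 3) ℤ) (hA : A.det = 1)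
    (M : Matrix (Fin 4) (Fin 4) ℝ) (hM : Mᵀ = -M) :
    pf4 ((hat A)ᵀ * M * hat A) = pf4 M := by
  have hs : ∀ i j, M j i = -M i j := by
    intro i j
    have h := congrFun (congrFun hM i) j
    simpa [Matrix.transpose_apply] using h
  have hd : ∀ i, M i i = 0 := by
    intro i
    have h := hs i i
    linarith
  have hA' : ((A.det : ℤ) : ℝ) = 1 := by
    rw [hA]
    norm_num
  rw [Matrix.det_fin_three] at hA'
  push_cast at hA'
  have e00 : hat A 0 0 = 1 := rfl
  have e01 : hat A 0 1 = 0 := rfl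
  have e02 : hat A 0 2 = 0 := rfl
  have e03 : hat A 0 3 = 0 := rfl
  have e10 : hat A 1 0 = 0 := rfl
  have e11 : hat A 1 1 = (A 0 0 : ℝ) := rfl
  have e12 : hat A 1 2 = (A 0 1 : ℝ) := rfl
  have e13 : hat A 1 3 = (A 0 2 : ℝ) := rfl
  have e20 : hat A 2 0 = 0 := rfl
  have e21 : hat A 2 1 = (A 1 0 : ℝ) := rfl
  have e22 : hat A 2 2 = (A 1 1 : ℝ) := rfl
  have e23 : hat A 2 3 = (A 1 2 : ℝ) := rfl
  have e30 : hat A 3 0 = 0 := rfl
  have e31 : hat A 3 1 = (A 2 0 : ℝ) := rfl
  have e32 : hat A 3 2 = (A 2 1 : ℝ) := rfl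
  have e33 : hat A 3 3 = (A 2 2 : ℝ) := rfl
  unfold pf4
  simp only [Matrix.mul_apply, Matrix.transpose_apply, Fin.sum_univ_four, e00, e01, e02, e03, e10, e11, e12, e13, e20, e21, e22, e23, e30, e31, e32, e33,
    mul_zero, zero_mul, add_zero, zero_add, one_mul,
    hs 0 1, hs 0 2, hs 0 3, hs 1 2, hs 1 3, hs 2 3, hd 0, hd 1, hd 2, hd 3]
  linear_combination (M 0 1 * M 2 3 - M 0 2 * M 1 3 + M 0 3 * M 1 2) * hA'

theorem pf4_corrected (c : ℝ) (J β : Matrix (Fin 4) (Fin 4) ℝ) :
    pf4 (corrected c J β) = pf4 (corrected 0 J β) + c * P1 J β := by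
  unfold pf4 P1 corrected wedge
  generalize avec J β = a
  simp only [Matrix.add_apply, Matrix.sub_apply, Matrix.smul_apply, Matrix.vecMulVec_apply,
    smul_eq_mul, e0, Pi.single_apply]
  have h10 : (1 : Fin 4) ≠ 0 := by decide
  have h20 : (2 : Fin 4) ≠ 0 := by decide
  have h30 : (3 : Fin 4) ≠ 0 := by decide
  simp only [if_neg h10, if_neg h20, if_neg h30, if_true]
  ring

end Vale.Agent.H55.TB
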