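import Vale.Agent.H55.TB.Basic

/-!
ROW TB-SPATIAL (replace the `sorry`, keep the statement exactly; helper lemmas: fresh names with
stem `tbs_` in this file).  The constant spatial form of a closed taming form: COPY-ADAPT of the
first half of `Vale.Agent.H55.Tamed.main_general` (`Vale/Agent/H55/TamedGeneral.lean`, from
`set A : ℝ → Fin 4 → Fin 4 → ℝ := fun t a b => avg (fun x => om x a b) t` up to and including
`hplane`), which may be copied verbatim with these changes:
* periodicity `hoper` is now only available in the three spatial directions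
  (`om (x + Pi.single i.succ 1) = om x`) - the original proof uses it only there
  (`avg_spatialDeriv`);
* `J` is only `FiberInvariant` (`hJline : J (cons4 t y) = J (Pi.single 0 t)` follows as before:
  both points have `0`-coordinate `t`);
* take `Om0 = Matrix.of (fun a b => if a ≠ 0 ∧ b ≠ 0 then A 0 a b else 0)` as there; the new
  third clause is `hconst` (the spatial averages do not depend on `t`) read backwards.
-/

namespace Vale.Agent.H55.TB

open Matrix Vale.Agent.H55.Tamed
open scoped ContDiff

theorem tb_spatial (J om : (Fin 4 → ℝ) → Matrix (Fin 4) (Fin 4) ℝ)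
    (hJs : SmoothField J) (hJ2 : ∀ x, J x * J x = -1) (hJinv : FiberInvariant J)
    (hos : SmoothField om) (hskew : ∀ x, (om x)ᵀ = -om x)
    (hoper : ∀ (x : Fin 4 → ℝ) (i : Fin 3), om (x + Pi.single i.succ 1) = om x)
    (hclosed : IsClosedForm om) (htame : Tames om J) :
    ∃ Om0 : Matrix (Fin 4) (Fin 4) ℝ, Om0ᵀ = -Om0 ∧ (∀ i, Om0 0 i = 0) ∧
      (∀ (t : ℝ) (a b : Fin 3), Om0 a.succ b.succ = avg (fun x => om x a.succ b.succ) t) ∧
      ∀ t, ∀ v : Fin 4 → ℝ, v ≠ 0 → v 0 = 0 → fvec (J (Pi.single 0 t)) ⬝ᵥ v = 0 →
        0 < v ⬝ᵥ (Om0 *ᵥ (J (Pi.single 0 t) *ᵥ v)) := by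
  -- averaged coefficients
  set A : ℝ → Fin 4 → Fin 4 → ℝ := fun t a b => avg (fun x => om x a b) t with hA
  have hc1 : ∀ a b, ContDiff ℝ 1 (fun x => om x a b) := fun a b => (hos a b).of_le (by simp)
  have hcont : ∀ a b, Continuous (fun x => om x a b) := fun a b => (hos a b).continuous
  have homc : Continuous om := continuous_matrix (fun i j => hcont i j)
  have hdc : ∀ a b i, Continuous (fun x => fderiv ℝ (fun y => om y a b) x (Pi.single i 1)) :=
    fun a b i => ((hc1 a b).continuous_fderiv one_ne_zero).clm_apply continuous_const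
  -- the spatial coefficients of the average do not depend on the height
  have hconst : ∀ (ja jb : Fin 3) (t : ℝ), A t ja.succ jb.succ = A 0 ja.succ jb.succ := by
    intro ja jb t
    have hd : ∀ s, HasDerivAt (fun t => A t ja.succ jb.succ) 0 s := by
      intro s
      have h1 := hasDerivAt_avg (fun x => om x ja.succ jb.succ) (hc1 _ _) s
      have h2 : avg (fun x => fderiv ℝ (fun y => om y ja.succ jb.succ) x (Pi.single 0 1)) s
          = 0 := by
        have e : (fun x => fderiv ℝ (fun y => om y ja.succ jb.succ) x (Pi.single 0 1))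
            = fun x => -(fderiv ℝ (fun y => om y jb.succ 0) x (Pi.single ja.succ 1))
              + -(fderiv ℝ (fun y => om y 0 ja.succ) x (Pi.single jb.succ 1)) := by
          funext x
          have := hclosed x 0 ja.succ jb.succ
          unfold coordDeriv at this
          linarith
        have k1 : Continuous (fun x => -(fderiv ℝ (fun y => om y jb.succ 0) x
            (Pi.single ja.succ 1))) := (hdc _ _ _).neg
        have k2 : Continuous (fun x => -(fderiv ℝ (fun y => om y 0 ja.succ) x
            (Pi.single jb.succ 1))) := (hdc _ _ _).neg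
        rw [e, avg_add (fun x => -(fderiv ℝ (fun y => om y jb.succ 0) x (Pi.single ja.succ 1)))
            (fun x => -(fderiv ℝ (fun y => om y 0 ja.succ) x (Pi.single jb.succ 1))) k1 k2,
          avg_neg, avg_neg,
          avg_spatialDeriv _ (hc1 _ _) ja (fun x => by rw [hoper]) s,
          avg_spatialDeriv _ (hc1 _ _) jb (fun x => by rw [hoper]) s]
        simp
      rw [h2] at h1
      exact h1
    exact is_const_of_deriv_eq_zero (fun s => (hd s).differentiableAt) (fun s => (hd s).deriv) t 0
  have hAskew : ∀ t a b, A t b a = -A t a b := by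
    intro t a b
    simp only [hA]
    rw [← avg_neg]
    congr 1
    funext x
    have := congrFun (congrFun (hskew x) a) b
    simp only [Matrix.transpose_apply, Matrix.neg_apply] at this
    exact this
  -- the constant spatial form
  set Om0 : Matrix (Fin 4) (Fin 4) ℝ :=
    Matrix.of (fun a b => if a ≠ 0 ∧ b ≠ 0 then A 0 a b else 0) with hOm0
  have hOm0skew : Om0ᵀ = -Om0 := by
    ext a b
    simp only [hOm0, Matrix.transpose_apply, Matrix.of_apply, Matrix.neg_apply]
    by_cases ha : a = 0
    · simp [ha]
    · by_cases hb : b = 0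
      · simp [hb]
      · simp only [ha, hb, ne_eq, not_false_eq_true, and_self, if_true]
        exact hAskew 0 a b
  have hJline : ∀ (t : ℝ) (y : Fin 3 → ℝ), J (cons4 t y) = J (Pi.single 0 t) :=
    fun t y => hJinv _ _ (by simp)
  have hplane : ∀ t, ∀ v : Fin 4 → ℝ, v ≠ 0 → v 0 = 0 → fvec (J (Pi.single 0 t)) ⬝ᵥ v = 0 →
      0 < v ⬝ᵥ (Om0 *ᵥ (J (Pi.single 0 t) *ᵥ v)) := by
    intro t v hv hv0 hfv
    obtain ⟨w, hw⟩ : ∃ w : Fin 4 → ℝ, w = J (Pi.single 0 t) *ᵥ v := ⟨_, rfl⟩
    rw [← hw]
    have hw0 : w 0 = 0 := by
      have := fvec_dot (J (Pi.single 0 t)) v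
      rw [hfv, ← hw] at this
      linarith
    have e1 : v ⬝ᵥ (Om0 *ᵥ w) = avg (fun x => v ⬝ᵥ (om x *ᵥ w)) t := by
      have e2 : (fun x => v ⬝ᵥ (om x *ᵥ w)) = fun x => ∑ a, ∑ b, (v a * w b) * om x a b := by
        funext x
        simp only [dotProduct, Matrix.mulVec, Finset.mul_sum]
        refine Finset.sum_congr rfl (fun a _ => Finset.sum_congr rfl (fun b _ => by ring))
      have k3 : ∀ a b, Continuous (fun x => (v a * w b) * om x a b) :=
        fun a b => continuous_const.mul (hcont a b)
      have k4 : ∀ a, Continuous (fun x => ∑ b, (v a * w b) * om x a b) :=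
        fun a => continuous_finsetSum _ (fun b _ => k3 a b)
      rw [e2, avg_sum Finset.univ (fun a x => ∑ b, (v a * w b) * om x a b) (fun a _ => k4 a)]
      simp only [dotProduct, Matrix.mulVec, Finset.mul_sum]
      refine Finset.sum_congr rfl (fun a _ => ?_)
      rw [avg_sum Finset.univ (fun b x => (v a * w b) * om x a b) (fun b _ => k3 a b)]
      refine Finset.sum_congr rfl (fun b _ => ?_)
      rw [avg_const_mul]
      by_cases ha : a = 0
      · subst ha
        rw [hv0]
        ring
      by_cases hb : b = 0
      · subst hb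
        rw [hw0]
        ring
      obtain ⟨ja, rfl⟩ := Fin.exists_succ_eq_of_ne_zero ha
      obtain ⟨jb, rfl⟩ := Fin.exists_succ_eq_of_ne_zero hb
      have h3 := hconst ja jb t
      simp only [hA] at h3
      simp only [hOm0, Matrix.of_apply, ha, hb, ne_eq, not_false_eq_true, and_self, if_true, hA]
      rw [h3]
      ring
    rw [e1]
    apply avg_pos
    · exact continuous_const.dotProduct (homc.matrix_mulVec continuous_const)
    · intro y
      have := htame (cons4 t y) v hv
      rw [hJline t y, ← hw] at this
      exact this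
  refine ⟨Om0, hOm0skew, ?_, ?_, hplane⟩
  · intro i
    simp [hOm0]
  · intro t a b
    have h := hconst a b t
    simp only [hOm0, Matrix.of_apply, ne_eq, Fin.succ_ne_zero, not_false_eq_true, and_self,
      if_true]
    exact h.symm

end Vale.Agent.H55.TB
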